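import Vale.Agent.P042.M.Defs

/-! # P042 M/Ang (TASK; helper names end with _man): the products over the primes of the modulus.
`mag2`: `Real.rpow_def_of_pos`, `Real.exp_sum`, `sum_filter_add_sum_filter_not`.  `ang2`: `prod_ugb`, `pk_le'` at each prime (U/GlobB, U/Seq); small primes: `cheb_set` and `∑ log p ≤ log (primorial ⌊y⌋₊) ≤ y log 4 ≤ 2 y` (`sum_log_uch`, `primorial_le_4_pow`); large primes: `p ^ (-(1 / 2)) ≤ 1 / √y`, `log p ≤ m p * log p`.
`abs2`: `abs_le'` with `l = 1` and monotonicity of `p ^ (t - 1 / 2)` in `t`.  `lev2`: `lead_ulo` at each prime, `log q = ∑ factorization p * log p` (`Nat.factorization_prod_pow_eq_self`, `Real.log_prod`, or `Real.log_nat_eq_sum_factorization`), at most `natAbs l` primes are `≤ natAbs l`; if `natAbs l < p` and `m p = 0` then `p ^ j ≤ |l| < p` with `j ≥ 1`. -/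

namespace Vale.Agent.P042.S

open Finset Polynomial

theorem pw_man {x : ℝ} (hx : 0 < x) (κ : ℝ) (n : ℕ) :
    (x ^ (-κ)) ^ n = Real.exp (-(κ * (n * Real.log x))) := by
  rw [Real.rpow_def_of_pos hx, ← Real.exp_nat_mul]
  congr 1
  ring

theorem mag2 (y κ₀ r : ℝ) (q : ℕ) (m : ℕ → ℕ) :
    ∏ p ∈ q.primeFactors, ((p : ℝ) ^ (-kp y κ₀ r p)) ^ m p =
      Real.exp (-(κ₀ * x1 y q m)) * Real.exp (-(r * x2 y q m)) := by
  rw [← prod_filter_mul_prod_filter_not _ fun p : ℕ => (p : ℝ) ≤ y, x1, x2, mul_sum, mul_sum,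
    ← sum_neg_distrib, ← sum_neg_distrib, Real.exp_sum, Real.exp_sum]
  congr 1
  · refine prod_congr rfl fun p hp => ?_
    rw [kp, if_pos (mem_filter.1 hp).2, pw_man (two_pos.trans_le (two_ugb (mem_filter.1 hp).1))]
  · refine prod_congr rfl fun p hp => ?_
    rw [kp, if_neg (mem_filter.1 hp).2, pw_man (two_pos.trans_le (two_ugb (mem_filter.1 hp).1))]

theorem x12_nonneg (y : ℝ) (q : ℕ) (m : ℕ → ℕ) : 0 ≤ x1 y q m ∧ 0 ≤ x2 y q m := by
  exact ⟨sum_nonneg fun p _ => mul_nonneg (Nat.cast_nonneg _) (Real.log_natCast_nonneg p),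
    sum_nonneg fun p _ => mul_nonneg (Nat.cast_nonneg _) (Real.log_natCast_nonneg p)⟩

theorem th_man {y : ℝ} (hy : 0 < y) (q : ℕ) :
    ∑ p ∈ q.primeFactors.filter fun p : ℕ => (p : ℝ) ≤ y, Real.log p ≤ 2 * y := by
  have h2 := sum_log_uch (s := q.primeFactors.filter fun p : ℕ => (p : ℝ) ≤ y)
    (fun p hp => Nat.prime_of_mem_primeFactors (mem_filter.1 hp).1) (primorial_pos ⌊y⌋₊)
    (prod_dvd_prod_of_subset _ _ _ fun r hr => mem_filter.2 ⟨mem_range.2 (Nat.lt_succ_of_le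
      (Nat.le_floor (mem_filter.1 hr).2)), Nat.prime_of_mem_primeFactors (mem_filter.1 hr).1⟩)
  have e1 : ((primorial ⌊y⌋₊ : ℕ) : ℝ) ≤ 2 ^ (2 * ⌊y⌋₊) := by
    rw [pow_mul]
    exact_mod_cast primorial_le_four_pow ⌊y⌋₊
  have e2 := Real.log_le_log (by exact_mod_cast primorial_pos ⌊y⌋₊) e1
  rw [Real.log_pow] at e2
  push_cast at e2
  have e3 := Nat.floor_le hy.le
  have e4 : (0 : ℝ) ≤ ⌊y⌋₊ := Nat.cast_nonneg _
  nlinarith [Real.log_two_lt_d9]

theorem ang2 {Λ y κ₀ r l : ℝ} {q : ℕ} {m : ℕ → ℕ} (hΛ : 0 ≤ Λ) (hy : 0 < y) (h0 : 0 ≤ κ₀)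
    (hr : 0 ≤ r) (hl : 0 ≤ l) (h1 : κ₀ * l ≤ 1 / 8) (h2 : r * l ≤ 1 / 8)
    (hm : ∀ p ∈ q.primeFactors, y < p → 1 ≤ m p) :
    ∏ p ∈ q.primeFactors, (1 + (1 - (p : ℝ) ^ (-kp y κ₀ r p)) *
      (Λ * (p : ℝ) ^ (kp y κ₀ r p * l - 1 / 2))) ≤
      Real.exp (Λ * (9 * κ₀ * √(2 * y) + 400 * (κ₀ * l) ^ 3 * y) +
        Λ * (3 / √y + 200 * l ^ 3 * r ^ 2) * (r * x2 y q m)) := by
  have k0 : ∀ p, 0 ≤ kp y κ₀ r p := fun p => by
    rw [kp]
    split_ifs
    exacts [h0, hr]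
  refine prod_ugb (fun p hp => mul_nonneg (sub_nonneg.2
    (Real.rpow_le_one_of_one_le_of_nonpos (by linarith [two_ugb hp]) (neg_nonpos.2 (k0 p))))
    (by positivity)) ?_
  rw [← sum_filter_add_sum_filter_not _ fun p : ℕ => (p : ℝ) ≤ y]
  refine add_le_add ?_ ?_
  · refine (sum_le_sum (g := fun p : ℕ => Λ * (3 * κ₀ * (Real.log p * (p : ℝ) ^ (-(1 / 2) : ℝ)) +
      200 * (κ₀ * l) ^ 3 * Real.log p)) fun p hp => ?_).trans ?_
    · rw [kp, if_pos (mem_filter.1 hp).2, mul_left_comm]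
      exact mul_le_mul_of_nonneg_left
        (pk_le' (two_ugb (mem_filter.1 hp).1) (mul_nonneg h0 hl) h1 h0) hΛ
    · rw [← mul_sum, sum_add_distrib, ← mul_sum, ← mul_sum]
      have k1 := mul_le_mul_of_nonneg_left ((cheb_set _ fun p hp =>
        Nat.prime_of_mem_primeFactors (mem_filter.1 hp).1).trans
        (mul_le_mul_of_nonneg_left (Real.sqrt_le_sqrt (th_man hy q)) zero_le_three)) h0
      have k2 := mul_le_mul_of_nonneg_left (th_man hy q) (pow_nonneg (mul_nonneg h0 hl) 3)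
      exact mul_le_mul_of_nonneg_left (by linarith) hΛ
  · rw [x2, mul_sum, mul_sum]
    refine sum_le_sum fun p hp => ?_
    obtain ⟨hp1, hp2⟩ := mem_filter.1 hp
    have p0 : (0 : ℝ) < p := two_pos.trans_le (two_ugb hp1)
    have l0 : 0 ≤ Real.log p := Real.log_natCast_nonneg p
    have k1 : (p : ℝ) ^ (-(1 / 2) : ℝ) ≤ 1 / √y := by
      rw [Real.rpow_neg p0.le, ← Real.sqrt_eq_rpow, one_div]
      exact inv_anti₀ (Real.sqrt_pos.2 hy) (Real.sqrt_le_sqrt (not_le.1 hp2).le)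
    have k2 : Real.log p ≤ m p * Real.log p :=
      le_mul_of_one_le_left l0 (by exact_mod_cast hm p hp1 (not_le.1 hp2))
    rw [kp, if_neg hp2, mul_left_comm, mul_assoc Λ]
    refine mul_le_mul_of_nonneg_left ((pk_le' (two_ugb hp1) (mul_nonneg hr hl) h2 hr).trans
      (le_trans ?_ (mul_le_mul_of_nonneg_left (mul_le_mul_of_nonneg_left k2 hr)
        (by positivity)))) hΛ
    have k3 := mul_le_mul_of_nonneg_left k1 (mul_nonneg hr l0)
    have k4 : (3 / √y + 200 * l ^ 3 * r ^ 2) * (r * Real.log p) =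
        3 * (r * Real.log p * (1 / √y)) + 200 * (r * l) ^ 3 * Real.log p := by ring
    rw [k4]
    linarith

theorem abs2 {Λ y κ₀ r l t : ℝ} {q W : ℕ} (hq : 0 < q) (hΛ : 0 ≤ Λ) (h0 : 0 ≤ t) (h1 : t ≤ 1 / 8)
    (h2 : κ₀ * l ≤ t) (h3 : r * l ≤ t) (hW : 2 ≤ W) :
    ∏ p ∈ q.primeFactors, (1 + 2 * (Λ * (p : ℝ) ^ (kp y κ₀ r p * l - 1 / 2))) ≤
      Real.exp (6 * Λ * W + 2 * Λ * (9 * √(Real.log q) / Real.log W + 200 * t ^ 3 * Real.log q)) := by
  have h := abs_le' hq hΛ h0 h1 hW le_rfl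
  simp only [Nat.cast_one, ite_self, one_mul, Real.log_one, zero_add] at h
  refine (prod_le_prod (fun p _ => by positivity) fun p hp => ?_).trans h
  have k1 : kp y κ₀ r p * l ≤ t := by
    rw [kp]
    split_ifs
    exacts [h2, h3]
  have k2 := mul_le_mul_of_nonneg_left (Real.rpow_le_rpow_of_exponent_le
    (one_le_two.trans (two_ugb hp)) (sub_le_sub_right k1 (1 / 2))) hΛ
  linarith

theorem lev2 {l : ℤ} (hl : l ≠ 0) (y : ℝ) {q k : ℕ} (hq : 0 < q) {m : ℕ → ℕ}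
    (hm : ∀ p ∈ q.primeFactors, (p : ℤ) ^ q.factorization p ≤ |l| * (p : ℤ) ^ (k * m p)) :
    Real.log q ≤ l.natAbs * Real.log l.natAbs + k * (x1 y q m + x2 y q m) ∧
      ∀ p ∈ q.primeFactors, l.natAbs < p → 1 ≤ m p := by
  have l1 : (1 : ℝ) ≤ l.natAbs := by exact_mod_cast Int.natAbs_pos.2 hl
  refine ⟨?_, fun p hp h => ?_⟩
  · rw [Real.log_nat_eq_sum_factorization, Finsupp.sum, Nat.support_factorization, x1, x2,
      sum_filter_add_sum_filter_not, mul_sum]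
    refine (sum_le_sum (g := fun p : ℕ => (if p ≤ l.natAbs then Real.log l.natAbs else 0) +
      k * (m p * Real.log p)) fun p hp => ?_).trans ?_
    · have p0 : (0 : ℝ) < p := two_pos.trans_le (two_ugb hp)
      obtain ⟨a1, a2⟩ := lead_ulo (Nat.prime_of_mem_primeFactors hp) hl (hm p hp)
      rw [Nat.cast_pow] at a2
      have a3 := Real.log_le_log (pow_pos p0 _) a2
      rw [Real.log_mul (one_pos.trans_le a1).ne' (pow_pos p0 _).ne', Real.log_pow, Real.log_pow,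
        apply_ite Real.log, Real.log_one, Nat.cast_mul, mul_assoc] at a3
      exact a3
    · rw [sum_add_distrib, ← sum_filter, sum_const, nsmul_eq_mul]
      refine add_le_add (mul_le_mul_of_nonneg_right (Nat.cast_le.2 ?_) (Real.log_nonneg l1)) le_rfl
      refine (card_le_card fun p hp => ?_).trans (Nat.card_Icc 1 l.natAbs).le
      exact mem_Icc.2 ⟨Nat.pos_of_mem_primeFactors (mem_filter.1 hp).1, (mem_filter.1 hp).2⟩
  · refine Nat.pos_of_ne_zero fun h0 => ?_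
    have h1 := hm p hp
    rw [h0, mul_zero, pow_zero, mul_one, ← Int.natCast_natAbs] at h1
    have h2 : p ^ q.factorization p ≤ l.natAbs := by exact_mod_cast h1
    have h3 : q.factorization p ≠ 0 := Finsupp.mem_support_iff.1 (by rwa [Nat.support_factorization])
    exact absurd ((Nat.le_self_pow h3 p).trans h2) (not_le.2 h)

end Vale.Agent.P042.S
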