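import Vale.Agent.P042.U.GlobU

/-! # P042 M/Defs: mixtures of product weights (FROZEN, owner helper37).
The weights of U with exponents `κ₀` at the primes up to `y` and `r i` at the other primes are mixed
with the probabilities `nu s I i`; this gains a factor `√(log log N)` in the exponent. -/

namespace Vale.Agent.P042.S

open Finset Polynomial

noncomputable section

/-- The product weight with exponents `κ p`. -/
def DK (κ : ℕ → ℝ) (E : ℕ) (z : ℤ) : ℕ → ℕ → ℤ → ℝ := DT (fun p => (p : ℝ) ^ (-κ p)) (fun _ => E) z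

/-- Two exponents. -/
def kp (y κ₀ r : ℝ) (p : ℕ) : ℝ := if (p : ℝ) ≤ y then κ₀ else r

/-- The levels at the small primes. -/
def x1 (y : ℝ) (q : ℕ) (m : ℕ → ℕ) : ℝ :=
  ∑ p ∈ q.primeFactors.filter fun p : ℕ => (p : ℝ) ≤ y, (m p : ℝ) * Real.log p

/-- The levels at the large primes. -/
def x2 (y : ℝ) (q : ℕ) (m : ℕ → ℕ) : ℝ :=
  ∑ p ∈ q.primeFactors.filter fun p : ℕ => ¬ (p : ℝ) ≤ y, (m p : ℝ) * Real.log p

/-- The probabilities of the mixture. -/
def nu (s : ℝ) (I i : ℕ) : ℝ := Real.exp (-(i * s)) / ∑ j ∈ range (I + 1), Real.exp (-(j * s))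

end

end Vale.Agent.P042.S
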