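import Vale.Agent.P042.M.Defs

/-! # P042 M/Fin (TASK; helper names end with _mfi): the final shape of the bound.
Model: `asym2` in U/Fin.  WLOG `A ≥ 1` (use `A + 1`).  Let `u₁ = max u₀ (A + 1)`.  If `N < 2 ^ ((A + 1) 256 ^ u₁)` then `√(log N * log (log N)) ≤ |log N|`-like is bounded by a constant (`log (log N) ≤ log N`), use `x ≤ N`.  Otherwise `u ≥ u₁` maximal with `2 ^ ((A + 1) 256 ^ u) ≤ N` (`Nat.findGreatest` or `Nat.find`); `log N ≤ (A + 1) 256 ^ (u + 1)`, `log (log N) ≤ (A + 1) + 6 (u + 1) ≤ 13 u` (`Real.log_le_self`, `log 256 ≤ 6`), so `√(log N log log N) ≤ 16 √(13 (A + 1)) √u 16 ^ u`; `c = e₁ / (2 * 16 √(13 (A + 1)))`, `(1 / 2) ^ L ≤ exp (-L / 2)`, `L ≥ e₁ √u 16 ^ u - 1` (`Nat.lt_floor_add_one`). -/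

namespace Vale.Agent.P042.S

open Finset Polynomial

theorem sq_mfi {B l : ℝ} (hB : 1 ≤ B) (v : ℕ) (h0 : 0 ≤ l) (h : l ≤ B * 256 ^ v) :
    l * Real.log l ≤ B * 256 ^ v * (B + 6 * v) := by
  have hv : (0 : ℝ) ≤ B + 6 * v := by positivity
  rcases h0.eq_or_lt with rfl | h1
  · rw [zero_mul]
    positivity
  · have h2 := Real.log_le_log h1 h
    rw [Real.log_mul (by positivity) (by positivity), Real.log_pow] at h2
    have h3 : Real.log B ≤ B := Real.log_le_self (by linarith)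
    have h4 : Real.log 256 ≤ 6 := by
      rw [show (256 : ℝ) = 2 ^ 8 by norm_num, Real.log_pow]
      push_cast
      linarith [Real.log_two_lt_d9]
    have h5 : (v : ℝ) * Real.log 256 ≤ v * 6 := mul_le_mul_of_nonneg_left h4 (Nat.cast_nonneg v)
    exact (mul_le_mul_of_nonneg_left (by linarith) h0).trans (mul_le_mul_of_nonneg_right h hv)

theorem log_mfi {A N v : ℕ} (hN : 0 < N) (h : N < 2 ^ ((A + 1) * 256 ^ v)) :
    Real.log N ≤ ((A : ℝ) + 1) * 256 ^ v := by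
  have h4 : (N : ℝ) ≤ 2 ^ ((A + 1) * 256 ^ v) := by exact_mod_cast h.le
  have h5 := Real.log_le_log (by positivity) h4
  have h6 : Real.log 2 ≤ 1 := by linarith [Real.log_two_lt_d9]
  rw [Real.log_pow] at h5
  refine h5.trans ((mul_le_of_le_one_right (Nat.cast_nonneg _) h6).trans (le_of_eq ?_))
  push_cast
  rfl

theorem asym3 (A : ℕ) {e₁ : ℝ} (he : 0 < e₁) : ∃ c : ℝ, 0 < c ∧ ∀ (u₀ : ℕ) (C : ℝ), ∃ C' : ℝ,
    ∀ (N : ℕ) (x : ℝ), x ≤ N → (∀ u : ℕ, u₀ ≤ u → 2 ^ (A * 256 ^ u) ≤ N →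
      x ≤ C * N * (1 / 2) ^ ⌊e₁ * √u * 16 ^ u⌋₊) →
      x ≤ C' * N * Real.exp (-(c * √(Real.log N * Real.log (Real.log N)))) := by
  have hB : (1 : ℝ) ≤ (A : ℝ) + 1 := by linarith [Nat.cast_nonneg (α := ℝ) A]
  have hK : (0 : ℝ) < √(13 * ((A : ℝ) + 1)) := by positivity
  obtain ⟨c, hc⟩ : ∃ c : ℝ, c = e₁ / (2 * 16 * √(13 * ((A : ℝ) + 1))) := ⟨_, rfl⟩
  have hc0 : 0 < c := by rw [hc]; positivity
  refine ⟨c, hc0, fun u₀ C => ?_⟩
  obtain ⟨u₁, hu₀, hu₁⟩ : ∃ u₁, u₀ ≤ u₁ ∧ A + 1 ≤ u₁ := ⟨_, le_max_left _ _, le_max_right _ _⟩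
  obtain ⟨S₁, hS₁⟩ : ∃ S₁ : ℝ, S₁ = √(((A : ℝ) + 1) * 256 ^ u₁ * (((A : ℝ) + 1) + 6 * u₁)) :=
    ⟨_, rfl⟩
  have hS0 : 0 ≤ c * S₁ := by rw [hS₁]; positivity
  refine ⟨(|C| + 1) * Real.exp (c * S₁ + 1), fun N x hx H => ?_⟩
  rcases Nat.eq_zero_or_pos N with rfl | hN
  · simpa using hx
  have hN' : (1 : ℝ) ≤ N := by exact_mod_cast hN
  have hl : 0 ≤ Real.log N := Real.log_nonneg hN'
  have hC := abs_nonneg C
  rw [mul_right_comm (|C| + 1), mul_assoc, ← Real.exp_add]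
  rcases lt_or_ge N (2 ^ ((A + 1) * 256 ^ u₁)) with h1 | h1
  · have h2 : √(Real.log N * Real.log (Real.log N)) ≤ S₁ := by
      rw [hS₁]
      exact Real.sqrt_le_sqrt (sq_mfi hB u₁ hl (log_mfi hN h1))
    have h3 := mul_le_mul_of_nonneg_left h2 hc0.le
    have h7 : 1 ≤ Real.exp (c * S₁ + 1 + -(c * √(Real.log N * Real.log (Real.log N)))) :=
      Real.one_le_exp (by linarith)
    refine hx.trans (le_trans ?_ (le_mul_of_one_le_right (by positivity) h7))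
    nlinarith
  · have hex : ∃ v, N < 2 ^ ((A + 1) * 256 ^ (u₁ + v)) := ⟨N, Nat.lt_two_pow_self.trans_le
      (Nat.pow_le_pow_right two_pos ((((Nat.lt_pow_self (by norm_num)).le).trans
        (Nat.pow_le_pow_right (by norm_num) (Nat.le_add_left N u₁))).trans
          (Nat.le_mul_of_pos_left _ A.succ_pos)))⟩
    obtain ⟨u, hu, h2, h3⟩ : ∃ u, u₁ ≤ u ∧ 2 ^ ((A + 1) * 256 ^ u) ≤ N ∧
        N < 2 ^ ((A + 1) * 256 ^ (u + 1)) := by
      have h2 := Nat.find_spec hex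
      obtain ⟨L, hL⟩ : ∃ L, Nat.find hex = L + 1 := Nat.exists_eq_succ_of_ne_zero fun h0 => by
        rw [h0, add_zero] at h2
        omega
      refine ⟨u₁ + L, Nat.le_add_right _ _, not_lt.1 (Nat.find_min hex (by omega)), ?_⟩
      rw [hL] at h2
      exact h2
    have hu' : (A : ℝ) + 1 ≤ u := by exact_mod_cast hu₁.trans hu
    have h4 : √(Real.log N * Real.log (Real.log N)) ≤
        16 * √(13 * ((A : ℝ) + 1)) * (√u * 16 ^ u) := by
      refine Real.sqrt_le_iff.2 ⟨by positivity, (sq_mfi hB (u + 1) hl (log_mfi hN h3)).trans ?_⟩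
      have e : ((16 : ℝ) ^ u) ^ 2 = 256 ^ u := by
        rw [← pow_mul, mul_comm, pow_mul]
        norm_num
      rw [mul_pow, mul_pow, mul_pow, Real.sq_sqrt (by positivity), Real.sq_sqrt (by positivity), e]
      have h5 : ((A : ℝ) + 1) + 6 * ((u + 1 : ℕ) : ℝ) ≤ 13 * u := by
        push_cast
        linarith
      refine (mul_le_mul_of_nonneg_left h5 (by positivity)).trans (le_of_eq ?_)
      ring
    have h5 : c * √(Real.log N * Real.log (Real.log N)) ≤ e₁ * √u * 16 ^ u / 2 := by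
      refine (mul_le_mul_of_nonneg_left h4 hc0.le).trans (le_of_eq ?_)
      rw [hc]
      field_simp
    have h6 : A * 256 ^ u ≤ (A + 1) * 256 ^ u := Nat.mul_le_mul_right _ A.le_succ
    refine (H u (hu₀.trans hu) ((Nat.pow_le_pow_right two_pos h6).trans h2)).trans ?_
    have h9 := Nat.lt_floor_add_one (e₁ * √u * 16 ^ u)
    have h7 : (1 / 2 : ℝ) ^ ⌊e₁ * √u * 16 ^ u⌋₊ ≤
        Real.exp (c * S₁ + 1 + -(c * √(Real.log N * Real.log (Real.log N)))) := by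
      have h8 : (1 / 2 : ℝ) ≤ Real.exp (-1 / 2) := by linarith [Real.add_one_le_exp (-1 / 2)]
      refine (pow_le_pow_left₀ (by norm_num) h8 _).trans ?_
      rw [← Real.exp_nat_mul]
      exact Real.exp_le_exp.2 (by linarith)
    have h8 : C ≤ |C| + 1 := by linarith [le_abs_self C]
    gcongr

end Vale.Agent.P042.S
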