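import Vale.Agent.P042.M.Sg

/-! # P042 M/Mix (TASK; helper names end with _mmi): the mixture lies in a sector.
`T i = exp (-(i s)) μ exp (-(r i x))`, `r i = r₀ 2 ^ (I - i)`, `t = ∑ nu i * μ exp (-(r i x)) ∈ [0, 1]` (`nu_sum`), `Z ≥ 1` the denominator of `nu`.  With `err i = (exp (η / 8 + γ r i x) - 1) T i`: if `r i x ≤ 4 s` then `err i ≤ (η / 2) T i` (`exp (η / 4) ≤ 1 + η / 2`, `Real.abs_exp_sub_one_le`).  Otherwise `err i ≤ 2 exp (r i x / 8) T i` (`exp (1 / 8) ≤ 2`); for `i < I`, `r (i + 1) = r i / 2`, `T (i + 1) = T i exp (-s + r i x / 2)`, so `err i ≤ 2 exp (-(s / 2)) T (i + 1) ≤ (η / 2) T (i + 1)`; for `i = I`, `err I ≤ 2 exp (-(I s))`.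
So `err i ≤ (η / 2) T i + (if i < I then (η / 2) T (i + 1) else 2 exp (-(I s)))`; `sum_range_succ`, `sum_range_succ'`. -/

namespace Vale.Agent.P042.S

open Finset Polynomial

theorem big_mmi {η γ a μ : ℝ} (hη : η ≤ 1) (hγ : γ ≤ 1 / 8) (ha : 0 ≤ a) (hμ : 0 ≤ μ) :
    (Real.exp (η / 8 + γ * a) - 1) * (μ * Real.exp (-a)) ≤ μ * (2 * Real.exp (-(7 / 8 * a))) := by
  have h1 : Real.exp (1 / 8) ≤ 2 := by
    have h2 := Real.abs_exp_sub_one_le (x := 1 / 8) (by rw [abs_of_nonneg] <;> norm_num)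
    rw [abs_of_nonneg (show (0 : ℝ) ≤ 1 / 8 by norm_num)] at h2
    linarith [le_abs_self (Real.exp (1 / 8) - 1)]
  have h3 : Real.exp (η / 8 + γ * a) * Real.exp (-a) ≤ Real.exp (1 / 8) * Real.exp (-(7 / 8 * a)) := by
    rw [← Real.exp_add, ← Real.exp_add]
    exact Real.exp_le_exp.2 (by nlinarith)
  have h4 := mul_le_mul_of_nonneg_right h1 (Real.exp_pos (-(7 / 8 * a))).le
  have h5 := mul_le_mul_of_nonneg_left (h3.trans h4) hμ
  have h6 := mul_nonneg hμ (Real.exp_pos (-a)).le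
  linarith

theorem sm_mmi {η b : ℝ} (hη0 : 0 < η) (hη : η ≤ 1) (hb : b ≤ η / 8) :
    Real.exp (η / 8 + b) - 1 ≤ η / 2 := by
  have h0 : |η / 4| = η / 4 := abs_of_nonneg (by linarith)
  have h2 := Real.abs_exp_sub_one_le (x := η / 4) (by linarith)
  have h3 : Real.exp (η / 8 + b) ≤ Real.exp (η / 4) := Real.exp_le_exp.2 (by linarith)
  linarith [le_abs_self (Real.exp (η / 4) - 1)]

theorem mix_sec {η s x μ r₀ γ : ℝ} {I : ℕ} (hη0 : 0 < η) (hη : η ≤ 1) (hs : 0 ≤ s) (hx : 0 ≤ x)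
    (hμ0 : 0 ≤ μ) (hμ : μ ≤ 1) (hr : 0 ≤ r₀) (hγ0 : 0 ≤ γ) (hγ : γ ≤ 1 / 8) (h1 : 4 * γ * s ≤ η / 8)
    (h2 : 2 * Real.exp (-(s / 2)) ≤ η / 2) {S : ℕ → ℂ}
    (hS : ∀ i ≤ I, ‖S i - ((μ * Real.exp (-(r₀ * 2 ^ (I - i) * x)) : ℝ) : ℂ)‖ ≤
      (Real.exp (η / 8 + γ * (r₀ * 2 ^ (I - i) * x)) - 1) *
        (μ * Real.exp (-(r₀ * 2 ^ (I - i) * x)))) :
    ∃ t : ℝ, 0 ≤ t ∧ t ≤ 1 ∧
      ‖∑ i ∈ range (I + 1), (nu s I i : ℂ) * S i - t‖ ≤ η * t + 2 * Real.exp (-(I * s)) := by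
  have _ := hs
  obtain ⟨a, ha⟩ : ∃ a : ℕ → ℝ, ∀ i, a i = r₀ * 2 ^ (I - i) * x := ⟨_, fun _ => rfl⟩
  simp only [← ha] at hS
  have a0 : ∀ i, 0 ≤ a i := fun i => by rw [ha]; positivity
  obtain ⟨n0, n1⟩ := nu_sum (s := s) I
  obtain ⟨V, hV⟩ : ∃ V : ℕ → ℝ, ∀ i, V i = nu s I i * (μ * Real.exp (-a i)) := ⟨_, fun _ => rfl⟩
  have m0 : ∀ i, 0 ≤ μ * Real.exp (-a i) := fun i => by positivity
  have V0 : ∀ i, 0 ≤ V i := fun i => hV i ▸ mul_nonneg (n0 i).1 (m0 i)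
  have e1 : ∀ i < I, nu s I i * ((Real.exp (η / 8 + γ * a i) - 1) * (μ * Real.exp (-a i))) ≤
      η / 2 * V i + η / 2 * V (i + 1) := fun i hi => by
    have b0 := mul_nonneg (half_pos hη0).le (V0 i)
    have b1 := mul_nonneg (half_pos hη0).le (V0 (i + 1))
    by_cases hc : a i ≤ 4 * s
    · have b2 := mul_le_mul_of_nonneg_right (sm_mmi hη0 hη (b := γ * a i)
        (by linarith [mul_le_mul_of_nonneg_left hc hγ0])) (V0 i)
      rw [hV i] at b2 ⊢
      linarith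
    · have b2 : a i = 2 * a (i + 1) := by
        rw [ha, ha, show I - i = I - (i + 1) + 1 by omega, pow_succ]
        ring
      have b3 : nu s I (i + 1) = nu s I i * Real.exp (-s) := by
        rw [nu, nu, div_mul_eq_mul_div, ← Real.exp_add]
        push_cast
        ring_nf
      have b4 : Real.exp (-(7 / 8 * a i)) ≤
          Real.exp (-(s / 2)) * (Real.exp (-s) * Real.exp (-a (i + 1))) := by
        rw [← Real.exp_add, ← Real.exp_add]
        exact Real.exp_le_exp.2 (by linarith [not_le.1 hc])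
      have b5 := mul_le_mul_of_nonneg_right h2
        (mul_pos (Real.exp_pos (-s)) (Real.exp_pos (-a (i + 1)))).le
      have b6 : 2 * Real.exp (-(7 / 8 * a i)) ≤
          η / 2 * (Real.exp (-s) * Real.exp (-a (i + 1))) := by linarith
      have b7 := mul_le_mul_of_nonneg_left ((big_mmi hη hγ (a0 i) hμ0).trans
        (mul_le_mul_of_nonneg_left b6 hμ0)) (n0 i).1
      rw [hV (i + 1), b3]
      linarith
  have e2 : nu s I I * ((Real.exp (η / 8 + γ * a I) - 1) * (μ * Real.exp (-a I))) ≤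
      2 * Real.exp (-(I * s)) := by
    have b1 : Real.exp (-(7 / 8 * a I)) ≤ 1 := Real.exp_le_one_iff.2 (by linarith [a0 I])
    have b2 : μ * (2 * Real.exp (-(7 / 8 * a I))) ≤ 1 * 2 :=
      mul_le_mul hμ (by linarith) (by positivity) zero_le_one
    have b3 := mul_le_mul_of_nonneg_left ((big_mmi hη hγ (a0 I) hμ0).trans b2) (n0 I).1
    linarith [(n0 I).2]
  refine ⟨∑ i ∈ range (I + 1), V i, sum_nonneg fun i _ => V0 i, ?_, ?_⟩
  · rw [← n1]
    refine sum_le_sum fun i _ => ?_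
    rw [hV]
    exact mul_le_of_le_one_right (n0 i).1 (mul_le_one₀ hμ (Real.exp_pos _).le
      (Real.exp_le_one_iff.2 (by linarith [a0 i])))
  · rw [Complex.ofReal_sum, ← sum_sub_distrib]
    have e3 : ∀ i ∈ range (I + 1), ‖(nu s I i : ℂ) * S i - (V i : ℂ)‖ ≤
        nu s I i * ((Real.exp (η / 8 + γ * a i) - 1) * (μ * Real.exp (-a i))) := fun i hi => by
      rw [hV, Complex.ofReal_mul, ← mul_sub, norm_mul, Complex.norm_real,
        Real.norm_of_nonneg (n0 i).1]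
      exact mul_le_mul_of_nonneg_left (hS i (Nat.lt_succ_iff.1 (mem_range.1 hi))) (n0 i).1
    refine (norm_sum_le_of_le _ e3).trans ?_
    have e4 := sum_le_sum fun i (hi : i ∈ range I) => e1 i (mem_range.1 hi)
    rw [sum_add_distrib, ← mul_sum, ← mul_sum] at e4
    have e5 : ∑ i ∈ range I, V i ≤ ∑ i ∈ range (I + 1), V i := by
      rw [sum_range_succ]
      linarith [V0 I]
    have e6 : ∑ i ∈ range I, V (i + 1) ≤ ∑ i ∈ range (I + 1), V i := by
      rw [sum_range_succ']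
      linarith [V0 0]
    have e7 := mul_le_mul_of_nonneg_left (add_le_add e5 e6) (half_pos hη0).le
    rw [sum_range_succ]
    linarith

end Vale.Agent.P042.S
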