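import Vale.Agent.P042.M.Defs

/-! # P042 M/ParA (TASK; helper names end with _mpa): the parameters, first part.
`n = 16 ^ u`, `g = √u`, `1 ≤ g ≤ 2 ^ u`, `y = n ^ 2 / u`, `√y = n / g ≥ 8 ^ u`, `κ₀ = e g / n ≤ e / 8 ^ u ≤ e`, `κ₀ √y = e`, `s = e n / g ≥ e 8 ^ u`, `(e / 8 ^ u) ^ 2 ≤ 1 / √y`.  Choose `e ≤ min 1 e₀` with `e ≤ c / 2`, `e l₀ ≤ 1 / 8`, `Λ (13 + 400 l₀ ^ 3) e ≤ η / 8`, `4 Λ (3 + 200 l₀ ^ 3) e ≤ η / 8` (`√2 ≤ 13 / 9`, `κ₀ ^ 3 y = e ^ 2 κ₀ ≤ e`); then `u` large (`8 ^ u ≥ u`, `Real.add_one_le_exp`: `exp (-a) ≤ 1 / a`, `u + 1 ≤ exp u`, `16 ^ u ≥ u ^ 2`). -/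

namespace Vale.Agent.P042.S

open Finset Polynomial

theorem e_mpa {c e₀ l P R η : ℝ} (hc : 0 < c) (he : 0 < e₀) (hη : 0 < η) : ∃ e : ℝ, 0 < e ∧ e ≤ 1 ∧
    e ≤ e₀ ∧ e ≤ c / 2 ∧ e * l ≤ 1 / 8 ∧ P * e ≤ η / 8 ∧ 4 * R * e ≤ η / 8 := by
  have h1 : ∀ a b : ℝ, 0 < b → ∀ᶠ e in nhdsWithin (0 : ℝ) (Set.Ioi 0), a * e ≤ b := fun a b hb =>
    nhdsWithin_le_nhds ((((continuous_const.mul continuous_id).tendsto' 0 0
      (by simp)).eventually (ge_mem_nhds hb)))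
  have h0 : ∀ᶠ e in nhdsWithin (0 : ℝ) (Set.Ioi 0), 0 < e := self_mem_nhdsWithin
  obtain ⟨e, a0, a1, a2, a3, a4, a5, a6⟩ := (h0.and
    ((h1 1 1 one_pos).and ((h1 1 e₀ he).and ((h1 1 (c / 2) (half_pos hc)).and
    ((h1 l (1 / 8) (by norm_num)).and ((h1 P (η / 8) (by positivity)).and
    (h1 (4 * R) (η / 8) (by positivity)))))))).exists
  exact ⟨e, a0, by linarith, by linarith, by linarith, by linarith, a5, a6⟩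

theorem a_mpa {Λ l e A : ℝ} (hΛ : 0 ≤ Λ) (hl : 0 ≤ l) (e0 : 0 < e) (e1 : e ≤ 1) (A1 : 1 ≤ A) :
    Λ * (9 * (e / A) * √(2 * A ^ 2) + 400 * (e / A * l) ^ 3 * A ^ 2) ≤
      Λ * (13 + 400 * l ^ 3) * e := by
  have A0 : 0 < A := by linarith
  have h1 : √(2 * A ^ 2) ≤ 13 / 9 * A := Real.sqrt_le_iff.2 ⟨by positivity, by nlinarith⟩
  have h2 : (e / A * l) ^ 3 * A ^ 2 ≤ l ^ 3 * e := by
    have h3 : e ^ 2 / A ≤ 1 := (div_le_one A0).2 ((pow_le_one₀ e0.le e1).trans A1)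
    calc (e / A * l) ^ 3 * A ^ 2 = l ^ 3 * e * (e ^ 2 / A) := by field_simp
      _ ≤ _ := mul_le_of_le_one_right (by positivity) h3
  calc _ ≤ Λ * (9 * (e / A) * (13 / 9 * A) + 400 * (l ^ 3 * e)) := by
        rw [mul_assoc 400]
        gcongr
    _ = _ := by field_simp

theorem b_mpa {η e A : ℝ} (hη : 0 < η) (e0 : 0 < e) (h2 : 8 / (e * η) ≤ A) :
    2 * Real.exp (-(e * A / 2)) ≤ η / 2 := by
  have h1 := mul_le_mul_of_nonneg_left (Real.add_one_le_exp (e * A / 2)) hη.le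
  rw [div_le_iff₀ (by positivity)] at h2
  rw [Real.exp_neg, ← div_eq_mul_inv, div_le_iff₀ (Real.exp_pos _)]
  linarith

theorem c_mpa {u k e g t : ℝ} (hk : 1 ≤ k) (e0 : 0 < e) (g1 : 1 ≤ g) (t0 : 1 ≤ t) (t1 : u ≤ t ^ 3)
    (h2 : 16 * k / e ≤ t) : (u + 1) * Real.exp (-(e * g * t ^ 4 / (8 * k))) ≤
      Real.exp (-(e * g * t ^ 4 / (16 * k))) := by
  have h1 : u ≤ e * g * t ^ 4 / (16 * k) := by
    rw [div_le_iff₀ e0] at h2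
    rw [le_div_iff₀ (by positivity)]
    calc u * (16 * k) ≤ t ^ 3 * (t * e) := by gcongr
      _ = e * 1 * t ^ 4 := by ring
      _ ≤ _ := by gcongr
  calc _ ≤ Real.exp (e * g * t ^ 4 / (16 * k)) * Real.exp (-(e * g * t ^ 4 / (8 * k))) :=
        mul_le_mul_of_nonneg_right ((Real.add_one_le_exp _).trans (Real.exp_le_exp.2 h1))
          (Real.exp_pos _).le
    _ = _ := by
        rw [← Real.exp_add]
        congr 1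
        field_simp
        ring

theorem parMa {c Λ η e₀ : ℝ} {k : ℕ} (l₀ : ℕ) (hc : 0 < c) (hΛ : 0 ≤ Λ) (hη : 0 < η) (he : 0 < e₀)
    (hk : 1 ≤ k) : ∃ e : ℝ, 0 < e ∧ e ≤ 1 ∧ e ≤ e₀ ∧ ∀ C₀ : ℝ, ∃ u₀ : ℕ, 1 ≤ u₀ ∧ ∀ u : ℕ, u₀ ≤ u →
      e / 8 ^ u ≤ c / 2 ∧ e / 8 ^ u * l₀ ≤ 1 / 8 ∧ e * √u / 16 ^ u ≤ e / 8 ^ u ∧
      Λ * (9 * (e * √u / 16 ^ u) * √(2 * (256 ^ u / u)) +
        400 * (e * √u / 16 ^ u * l₀) ^ 3 * (256 ^ u / u)) ≤ η / 8 ∧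
      Λ * (3 / √(256 ^ u / u) + 200 * (l₀ : ℝ) ^ 3 * (e / 8 ^ u) ^ 2) ≤ 1 / 8 ∧
      4 * (Λ * (3 / √(256 ^ u / u) + 200 * (l₀ : ℝ) ^ 3 * (e / 8 ^ u) ^ 2)) * (e * 16 ^ u / √u) ≤
        η / 8 ∧
      2 * Real.exp (-(e * 16 ^ u / √u / 2)) ≤ η / 2 ∧ C₀ ≤ 256 ^ u / u ∧
      (u + 1) * Real.exp (-(e * √u * 16 ^ u / (8 * k))) ≤
        Real.exp (-(e * √u * 16 ^ u / (16 * k))) := by
  have hl : (0 : ℝ) ≤ l₀ := Nat.cast_nonneg _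
  have hk' : (1 : ℝ) ≤ k := by exact_mod_cast hk
  obtain ⟨R, hR⟩ : ∃ R : ℝ, R = Λ * (3 + 200 * (l₀ : ℝ) ^ 3) := ⟨_, rfl⟩
  have R0 : 0 ≤ R := by rw [hR]; positivity
  obtain ⟨e, e0, e1, e2, e3, e4, e5, e6⟩ := e_mpa (l := l₀) (P := Λ * (13 + 400 * (l₀ : ℝ) ^ 3))
    (R := R) hc he hη
  refine ⟨e, e0, e1, e2, fun C₀ => ⟨⌈8 * R + 8 / (e * η) + |C₀| + 16 * k / e⌉₊ + 1, by omega,
    fun u hu => ?_⟩⟩
  have hu' : 8 * R + 8 / (e * η) + |C₀| + 16 * k / e + 1 ≤ u := by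
    have h1 := Nat.le_ceil (8 * R + 8 / (e * η) + |C₀| + 16 * k / e)
    have h2 : ((⌈8 * R + 8 / (e * η) + |C₀| + 16 * k / e⌉₊ + 1 : ℕ) : ℝ) ≤ u := by exact_mod_cast hu
    push_cast at h2
    linarith
  have q1 : 0 < 8 / (e * η) := by positivity
  have q2 : 0 < 16 * k / e := by positivity
  have q3 := abs_nonneg C₀
  have u1 : (1 : ℝ) ≤ u := by linarith
  have t1 : (u : ℝ) ≤ 2 ^ u := by exact_mod_cast Nat.lt_two_pow_self.le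
  obtain ⟨t, ht⟩ : ∃ t : ℝ, t = 2 ^ u := ⟨_, rfl⟩
  have p8 : (8 : ℝ) ^ u = t ^ 3 := by rw [ht, ← pow_mul, mul_comm, pow_mul]; norm_num
  have p16 : (16 : ℝ) ^ u = t ^ 4 := by rw [ht, ← pow_mul, mul_comm, pow_mul]; norm_num
  have p256 : (256 : ℝ) ^ u = t ^ 8 := by rw [ht, ← pow_mul, mul_comm, pow_mul]; norm_num
  rw [← ht] at t1
  have t0 : 1 ≤ t := u1.trans t1
  obtain ⟨g, hg⟩ : ∃ g : ℝ, g = √u := ⟨_, rfl⟩
  have g1 : 1 ≤ g := by rw [hg]; exact Real.one_le_sqrt.2 u1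
  have g2 : g ^ 2 = u := by rw [hg]; exact Real.sq_sqrt (by linarith)
  have g3 : g ≤ t := (le_self_pow₀ g1 two_ne_zero).trans (g2.le.trans t1)
  obtain ⟨A, hA⟩ : ∃ A : ℝ, A = t ^ 4 / g := ⟨_, rfl⟩
  have t3 : t ≤ t ^ 3 := le_self_pow₀ t0 (by norm_num)
  have A1 : t ^ 3 ≤ A := by
    rw [hA, le_div_iff₀ (by linarith)]
    calc t ^ 3 * g ≤ t ^ 3 * t := by gcongr
      _ = _ := by ring
  have A0 : 0 < A := by linarith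
  have A2 : 1 ≤ A := by linarith
  have y1 : t ^ 8 / (u : ℝ) = A ^ 2 := by rw [hA, ← g2]; ring
  have k1 : e * g / t ^ 4 = e / A := by rw [hA]; field_simp
  have k2 : e * t ^ 4 / g = e * A := by rw [hA]; ring
  have m1 : e / t ^ 3 ≤ e := div_le_self e0.le (t0.trans t3)
  have m2 : (e / t ^ 3) ^ 2 ≤ 1 / A := by
    rw [hA, one_div_div, div_pow]
    refine div_le_div₀ (by linarith) ((pow_le_one₀ e0.le e1).trans g1) (by positivity) ?_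
    rw [← pow_mul]
    exact pow_le_pow_right₀ t0 (by norm_num)
  have m3 : Λ * (3 / A + 200 * (l₀ : ℝ) ^ 3 * (e / t ^ 3) ^ 2) ≤ R / A := by
    calc _ ≤ Λ * (3 / A + 200 * (l₀ : ℝ) ^ 3 * (1 / A)) := by gcongr
      _ = _ := by rw [hR]; ring
  rw [p8, p16, p256, ← hg, y1, k1, k2, Real.sqrt_sq A0.le]
  refine ⟨m1.trans e3, (mul_le_mul_of_nonneg_right m1 hl).trans e4,
    div_le_div_of_nonneg_left e0.le (by positivity) A1, (a_mpa hΛ hl e0 e1 A2).trans e5,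
    m3.trans ?_, ?_, b_mpa hη e0 (by linarith), ?_,
    c_mpa hk' e0 g1 t0 (t1.trans t3) (by linarith)⟩
  · rw [div_le_iff₀ A0]
    linarith
  · calc _ ≤ 4 * (R / A) * (e * A) := by gcongr
      _ = 4 * R * e := by field_simp
      _ ≤ _ := e6
  · exact (le_abs_self C₀).trans (le_trans (by linarith) (le_self_pow₀ A2 two_ne_zero))

end Vale.Agent.P042.S
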