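import Vale.Agent.P042.M.Defs

/-! # P042 M/ParB (TASK; helper names end with _mpb): the parameters, second part.
`e₀ ≤ 1` with `400 Λ l₀ ^ 3 e₀ ≤ 1 / (8 k)`; `W` with `log W ≥ 300 k Λ / e` (`W = ⌈exp (300 k Λ / e)⌉₊ + 2`); `n = 16 ^ u`, `g = √u`, `1 ≤ g ≤ n`, `r₀ = e / n`, `X ≥ n ^ 2 log 2 ≥ (2 / 3) n ^ 2`, so `√X ≤ 2 X / n`, `18 Λ √X / log W ≤ r₀ X / (8 k)`, `(e / 8 ^ u) ^ 3 ≤ e ^ 2 / n`, `400 Λ (e / 8 ^ u l₀) ^ 3 X ≤ r₀ X / (8 k)`, and for `u` large `2 C₀ ≤ r₀ X / (8 k)`.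
With `ρ = g` if `2 i ≤ u` (then `g ≤ 2 ^ (u - i)`, since `u ≤ 2 ^ u ≤ (2 ^ (u - i)) ^ 2`) and `ρ = 1` otherwise: `κ₀ x₁ + r x₂ ≥ r₀ ρ (x₁ + x₂) ≥ r₀ ρ X / k - C₀` (`r₀ ρ ≤ 1 ≤ k`).  First case: the left side is at most `-(5 / 8) r₀ g X / k ≤ -(e g n / (8 k))`; second case: `i s ≥ (u / 2) e n / g = e g n / 2`. -/

namespace Vale.Agent.P042.S

open Finset Polynomial

theorem core_mpb {K Y C T₁ T₂ a ρ z s b : ℝ} (h1 : T₁ ≤ Y / (8 * K)) (h2 : T₂ ≤ Y / (8 * K))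
    (h3 : 2 * C ≤ Y / (8 * K)) (h4 : ρ * (Y / K) - C ≤ z) (h5 : -s + 3 * (Y / (8 * K)) -
      ρ * (Y / K) ≤ -b) (h6 : a = T₁ + T₂) : -s + (C + a) - z ≤ -b := by
  linarith

theorem t1_mpb {Λ K e n w X : ℝ} (hΛ : 0 ≤ Λ) (K0 : 0 < K) (he : 0 < e) (n0 : 0 < n) (w0 : 0 < w)
    (w1 : 300 * K * Λ / e ≤ w) (X1 : 2 / 3 * n ^ 2 ≤ X) :
    2 * Λ * (9 * √X / w) ≤ e / n * X / (8 * K) := by
  have X0 : 0 < X := lt_of_lt_of_le (by positivity) X1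
  have s1 : √X ≤ 2 * X / n := by
    rw [Real.sqrt_le_left (by positivity), div_pow, le_div_iff₀ (by positivity)]
    nlinarith [sq_nonneg n]
  have a1 : Λ / w ≤ e / (300 * K) := by
    rw [div_le_iff₀ he] at w1
    rw [div_le_div_iff₀ w0 (by positivity)]
    linarith
  calc 2 * Λ * (9 * √X / w) = 18 * (Λ / w * √X) := by ring
    _ ≤ 18 * (e / (300 * K) * (2 * X / n)) := by gcongr
    _ = 36 / 300 * (e / n * X / K) := by field_simp; norm_num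
    _ ≤ 1 / 8 * (e / n * X / K) := mul_le_mul_of_nonneg_right (by norm_num) (by positivity)
    _ = e / n * X / (8 * K) := by field_simp

theorem t2_mpb {Λ K e r l a X : ℝ} (hΛ : 0 ≤ Λ) (hl : 0 ≤ l) (hr : 0 ≤ r) (X0 : 0 ≤ X)
    (n8 : a ^ 3 ≤ e * r) (e2 : 400 * Λ * l ^ 3 * e ≤ 1 / (8 * K)) :
    2 * Λ * (200 * (a * l) ^ 3 * X) ≤ r * X / (8 * K) := by
  calc 2 * Λ * (200 * (a * l) ^ 3 * X) = 400 * Λ * l ^ 3 * a ^ 3 * X := by ring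
    _ ≤ 400 * Λ * l ^ 3 * (e * r) * X := by gcongr
    _ = 400 * Λ * l ^ 3 * e * (r * X) := by ring
    _ ≤ 1 / (8 * K) * (r * X) := by gcongr
    _ = r * X / (8 * K) := by ring

theorem low_mpb {K r g p ρ X C x₁ x₂ : ℝ} (K1 : 1 ≤ K) (r0 : 0 ≤ r) (hC : 0 ≤ C) (h1 : 0 ≤ x₁)
    (h2 : 0 ≤ x₂) (h3 : X ≤ C + K * (x₁ + x₂)) (hg : g * r ≤ 1) (a0 : 0 ≤ ρ) (a1 : ρ ≤ g)
    (a2 : ρ ≤ p) : ρ * (r * X / K) - C ≤ r * g * x₁ + r * p * x₂ := by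
  have b1 : r * X / K ≤ r * C + r * (x₁ + x₂) := by
    rw [div_le_iff₀ (by linarith)]
    nlinarith [mul_le_mul_of_nonneg_left h3 r0, mul_nonneg (mul_nonneg r0 hC) (sub_nonneg.2 K1)]
  have b2 : ρ * r ≤ 1 := (mul_le_mul_of_nonneg_right a1 r0).trans hg
  nlinarith [mul_le_mul_of_nonneg_left b1 a0, mul_le_mul_of_nonneg_right b2 hC,
    mul_le_mul_of_nonneg_right a1 (mul_nonneg r0 h1),
    mul_le_mul_of_nonneg_right a2 (mul_nonneg r0 h2)]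

theorem c1_mpb {K Y m g s : ℝ} (K0 : 0 < K) (m0 : 0 ≤ m) (Y1 : 2 / 3 * m ≤ Y) (g1 : 1 ≤ g)
    (s0 : 0 ≤ s) : -s + 3 * (Y / (8 * K)) - g * (Y / K) ≤ -(g * m / (8 * K)) := by
  have q0 : 0 ≤ Y / K := div_nonneg (by linarith) K0.le
  have q1 : Y / (8 * K) = Y / K / 8 := by field_simp
  have q2 : g * m / (8 * K) = g * (m / K) / 8 := by field_simp
  have q3 : 2 / 3 * (m / K) ≤ Y / K := by
    rw [← mul_div_assoc]
    exact div_le_div_of_nonneg_right Y1 K0.le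
  have q4 : 0 ≤ m / K := by positivity
  rw [q1, q2]
  nlinarith [mul_le_mul_of_nonneg_left q3 (by linarith : 0 ≤ g),
    mul_le_mul_of_nonneg_right g1 q0, mul_nonneg (by linarith : 0 ≤ g) q4]

theorem c2_mpb {K Y m g i : ℝ} (K1 : 1 ≤ K) (m0 : 0 ≤ m) (Y0 : 0 ≤ Y) (g1 : 1 ≤ g)
    (a1 : g * g ≤ 2 * i) :
    -(i * (m / g)) + 3 * (Y / (8 * K)) - 1 * (Y / K) ≤ -(g * m / (8 * K)) := by
  have K0 : 0 < K := by linarith
  have q0 : 0 ≤ Y / K := by positivity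
  have q1 : Y / (8 * K) = Y / K / 8 := by field_simp
  have q2 : g * m / (8 * K) = g * (m / K) / 8 := by field_simp
  have a2 : g * m / 2 ≤ i * (m / g) := by
    rw [← mul_div_assoc, div_le_div_iff₀ two_pos (by linarith)]
    nlinarith [mul_le_mul_of_nonneg_right a1 m0]
  have a3 : m / K ≤ m := div_le_self m0 K1
  rw [q1, q2]
  nlinarith [mul_le_mul_of_nonneg_left a3 (by linarith : 0 ≤ g), mul_nonneg (by linarith : 0 ≤ g) m0]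

theorem n8_mpb {e : ℝ} (he : 0 < e) (e1 : e ≤ 1) (u : ℕ) : (e / 8 ^ u) ^ 3 ≤ e * (e / 16 ^ u) := by
  rw [div_pow, ← pow_mul, mul_comm u 3, pow_mul, ← mul_div_assoc]
  exact div_le_div₀ (by positivity) (by nlinarith [mul_pos he he]) (by positivity)
    (pow_le_pow_left₀ (by norm_num) (by norm_num) u)

theorem w_mpb (t : ℝ) : 0 < Real.log ((⌈Real.exp t⌉₊ + 2 : ℕ) : ℝ) ∧
    t ≤ Real.log ((⌈Real.exp t⌉₊ + 2 : ℕ) : ℝ) := by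
  have c0 : (0 : ℝ) ≤ ⌈Real.exp t⌉₊ := Nat.cast_nonneg _
  refine ⟨Real.log_pos (by push_cast; linarith), ?_⟩
  rw [Real.le_log_iff_exp_le (by push_cast; linarith)]
  push_cast
  linarith [Nat.le_ceil (Real.exp t)]

theorem e_mpb {A K e : ℝ} (hA : 0 ≤ A) (K0 : 0 < K) (he : 0 < e) (h : e ≤ 1 / (8 * K * (A + 1))) :
    A * e ≤ 1 / (8 * K) := by
  rw [le_div_iff₀ (by positivity)] at h ⊢
  nlinarith [mul_pos he K0]

theorem parMb {Λ : ℝ} {k : ℕ} (l₀ : ℕ) (hΛ : 0 ≤ Λ) (hk : 1 ≤ k) : ∃ e₀ : ℝ, 0 < e₀ ∧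
    ∀ e : ℝ, 0 < e → e ≤ e₀ → ∃ W : ℕ, 2 ≤ W ∧ ∀ C₀ : ℝ, 0 ≤ C₀ → ∃ u₀ : ℕ, ∀ u : ℕ, u₀ ≤ u →
      ∀ X : ℝ, 256 ^ u * Real.log 2 ≤ X → ∀ i ≤ u, ∀ x₁ x₂ : ℝ, 0 ≤ x₁ → 0 ≤ x₂ →
        X ≤ C₀ + k * (x₁ + x₂) →
        -(i * (e * 16 ^ u / √u)) +
          (C₀ + 2 * Λ * (9 * √X / Real.log W + 200 * (e / 8 ^ u * l₀) ^ 3 * X)) -
          e * √u / 16 ^ u * x₁ - e / 16 ^ u * 2 ^ (u - i) * x₂ ≤ -(e * √u * 16 ^ u / (8 * k)) := by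
  have K1 : (1 : ℝ) ≤ k := by exact_mod_cast hk
  generalize (k : ℝ) = K at K1 ⊢
  have K0 : 0 < K := by linarith
  have hA : 0 ≤ 400 * Λ * (l₀ : ℝ) ^ 3 := by positivity
  refine ⟨min 1 (1 / (8 * K * (400 * Λ * (l₀ : ℝ) ^ 3 + 1))), lt_min one_pos (by positivity),
    fun e he he0 => ⟨⌈Real.exp (300 * K * Λ / e)⌉₊ + 2, by omega, fun C₀ hC =>
      ⟨⌈24 * K * C₀ / e⌉₊ + 1, fun u hu X hX i hi x₁ x₂ h1 h2 h3 => ?_⟩⟩⟩
  have e1 : e ≤ 1 := he0.trans (min_le_left _ _)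
  have e2 := e_mpb hA K0 he (he0.trans (min_le_right _ _))
  obtain ⟨w0, w1⟩ := w_mpb (300 * K * Λ / e)
  have u1 : (1 : ℝ) ≤ u := by exact_mod_cast (by omega : 1 ≤ u)
  have p2 : (u : ℝ) ≤ 2 ^ u := by exact_mod_cast (Nat.lt_two_pow_self (n := u)).le
  have un : (u : ℝ) ≤ 16 ^ u := p2.trans (pow_le_pow_left₀ (by norm_num) (by norm_num) u)
  have n2 : (256 : ℝ) ^ u = (16 ^ u) ^ 2 := by rw [← pow_mul, mul_comm, pow_mul]; norm_num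
  have g2 : √u * √u = (u : ℝ) := Real.mul_self_sqrt (by linarith)
  have g1 : 1 ≤ √(u : ℝ) := Real.one_le_sqrt.2 u1
  have n8 := n8_mpb he e1 u
  have a1 : 24 * K * C₀ / e ≤ (16 : ℝ) ^ u := by
    refine ((Nat.le_ceil _).trans ?_).trans un
    exact_mod_cast (by omega : ⌈24 * K * C₀ / e⌉₊ ≤ u)
  have a2 : 2 * i ≤ u → √(u : ℝ) ≤ 2 ^ (u - i) := fun hc => by
    rw [Real.sqrt_le_left (by positivity), ← pow_mul]
    exact p2.trans (pow_le_pow_right₀ (by norm_num) (by omega))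
  have a3 : ¬ 2 * i ≤ u → √u * √u ≤ 2 * (i : ℝ) := fun hc => by
    rw [g2]
    exact_mod_cast (by omega : u ≤ 2 * i)
  have a4 : (1 : ℝ) ≤ 2 ^ (u - i) := one_le_pow₀ (by norm_num)
  have i0 : (0 : ℝ) ≤ i := Nat.cast_nonneg _
  have gn : √(u : ℝ) ≤ 16 ^ u := ((le_mul_of_one_le_right (by linarith) g1).trans g2.le).trans un
  rw [n2] at hX
  have n0 : (0 : ℝ) < 16 ^ u := by positivity
  clear he0 hu un n2 g2 p2
  generalize (16 : ℝ) ^ u = n at *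
  generalize √(u : ℝ) = g at *
  have X1 : 2 / 3 * n ^ 2 ≤ X := by
    refine le_trans ?_ hX
    rw [mul_comm]
    exact mul_le_mul_of_nonneg_left (by linarith [Real.log_two_gt_d9]) (sq_nonneg n)
  have X0 : 0 < X := lt_of_lt_of_le (by positivity) X1
  have r0 : 0 < e / n := by positivity
  have Y1 : 2 / 3 * (e * n) ≤ e / n * X := by
    refine le_of_eq_of_le ?_ (mul_le_mul_of_nonneg_left X1 r0.le)
    field_simp
  have t1 := t1_mpb hΛ K0 he n0 w0 w1 X1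
  have t2 := t2_mpb hΛ (Nat.cast_nonneg l₀) r0.le X0.le n8 e2
  have t3 : 2 * C₀ ≤ e / n * X / (8 * K) := by
    rw [div_le_iff₀ he] at a1
    rw [le_div_iff₀ (by positivity)]
    linarith
  have gr : g * (e / n) ≤ 1 := by
    rw [← mul_div_assoc, div_le_one n0]
    exact (mul_le_of_le_one_right (by linarith) e1).trans gn
  rw [sub_sub, show e * g / n = e / n * g by ring, show e * g * n = g * (e * n) by ring]
  by_cases hc : 2 * i ≤ u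
  · exact core_mpb t1 t2 t3 (low_mpb K1 r0.le hC h1 h2 h3 gr (by linarith) le_rfl (a2 hc))
      (c1_mpb K0 (by positivity) Y1 g1 (by positivity)) (mul_add _ _ _)
  · exact core_mpb t1 t2 t3 (low_mpb K1 r0.le hC h1 h2 h3 gr zero_le_one g1 a4)
      (c2_mpb K1 (by positivity) (by positivity) g1 (a3 hc)) (mul_add _ _ _)

end Vale.Agent.P042.S
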