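import Vale.Agent.P042.M.Defs

/-! # P042 M/Prod (TASK; helper names end with _mpr): products for a family of weights.
Copy `prod_sec2`, `prod_dec2` (U/Prod), one induction for both claims and all `i`.  In the coprime step `m p = if p ∣ q₁ then m₁ p else m₂ p` (`Nat.Coprime.primeFactors_mul`, `Nat.factorization_eq_of_coprime_left`, `…_right`, `prod_congr`), and `x y - s t = (x - s) (y - t) + s (y - t) + (x - s) t`. -/

namespace Vale.Agent.P042.S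

open Finset Polynomial

theorem mul_mpr {x y : ℂ} {s t a b : ℝ} (hs : 0 ≤ s) (ht : 0 ≤ t) (ha : 1 ≤ a)
    (h1 : ‖x - s‖ ≤ (a - 1) * s) (h2 : ‖y - t‖ ≤ (b - 1) * t) :
    ‖x * y - ((s * t : ℝ) : ℂ)‖ ≤ (a * b - 1) * (s * t) := by
  rw [show x * y - ((s * t : ℝ) : ℂ) = (x - s) * (y - t) + s * (y - t) + (x - s) * t by
    push_cast; ring]
  refine (norm_add₃_le).trans ?_
  rw [norm_mul, norm_mul, norm_mul, Complex.norm_real, Complex.norm_real, Real.norm_of_nonneg hs,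
    Real.norm_of_nonneg ht]
  have h3 := mul_le_mul h1 h2 (norm_nonneg _) (mul_nonneg (sub_nonneg.2 ha) hs)
  have h4 := mul_le_mul_of_nonneg_left h2 hs
  have h5 := mul_le_mul_of_nonneg_right h1 ht
  linarith

theorem prodM {h : ℤ[X]} {D : ℕ → ℕ → ℕ → ℤ → ℝ} (hL : ∀ i, LW (D i)) {θ ξ β : ℕ → ℕ → ℝ}
    (hθ : ∀ i p, 0 ≤ θ i p) (hξ : ∀ i p, 0 ≤ ξ i p) (hβ : ∀ i p, 0 ≤ β i p) {P : ℕ → ℕ → ℕ → Prop}
    {Q : ℕ → Prop} {E : ℕ} (H : ∀ p : ℕ, p.Prime → ∀ (j : ℕ) (a : ℤ), p ^ j ≤ E → IsCoprime a p →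
      ∃ m : ℕ, P p j m ∧ ∀ i, Q i →
        ‖∑ d ∈ (p ^ j).divisors, tm h (D i) (p ^ j) a d - ((θ i p ^ m : ℝ) : ℂ)‖ ≤
          ξ i p * θ i p ^ m ∧
        ∑ d ∈ (p ^ j).divisors, ‖tm h (D i) (p ^ j) a d‖ ≤ β i p * θ i p ^ m) (q : ℕ) :
    0 < q → q ≤ E → ∀ a : ℤ, IsCoprime a q → ∃ m : ℕ → ℕ,
      (∀ p ∈ q.primeFactors, P p (q.factorization p) (m p)) ∧ ∀ i, Q i →
        ‖∑ d ∈ q.divisors, tm h (D i) q a d - ((∏ p ∈ q.primeFactors, θ i p ^ m p : ℝ) : ℂ)‖ ≤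
          (∏ p ∈ q.primeFactors, (1 + ξ i p) - 1) * ∏ p ∈ q.primeFactors, θ i p ^ m p ∧
        ∑ d ∈ q.divisors, ‖tm h (D i) q a d‖ ≤
          (∏ p ∈ q.primeFactors, β i p) * ∏ p ∈ q.primeFactors, θ i p ^ m p := by
  induction q using Nat.recOnPosPrimePosCoprime with
  | prime_pow p j hp hj =>
    intro _ hE a ha
    rw [Nat.cast_pow] at ha
    obtain ⟨m, h1, h2⟩ := H p hp j a hE ((IsCoprime.pow_right_iff hj).1 ha)
    rw [Nat.primeFactors_prime_pow hj.ne' hp]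
    refine ⟨fun _ => m, fun p' hp' => ?_, fun i hi => ?_⟩
    · rwa [mem_singleton.1 hp', Nat.Prime.factorization_pow hp, Finsupp.single_eq_same]
    · simp only [prod_singleton, add_sub_cancel_left]
      exact h2 i hi
  | zero => intro h0; exact absurd h0 (lt_irrefl 0)
  | one =>
    intro _ _ a _
    refine ⟨fun _ => 0, fun p hp => by simp at hp, fun i _ => ?_⟩
    simp [tm_one]
  | coprime q₁ q₂ h₁ h₂ hq ih₁ ih₂ =>
    intro _ hE a ha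
    have p₁ : 0 < q₁ := by omega
    have p₂ : 0 < q₂ := by omega
    obtain ⟨a₁, a₂, c₁, c₂, H'⟩ := ph_split h hq p₁ p₂ ha
    obtain ⟨m₁, d₁, b₁⟩ := ih₁ p₁ ((Nat.le_mul_of_pos_right _ p₂).trans hE) a₁ c₁
    obtain ⟨m₂, d₂, b₂⟩ := ih₂ p₂ ((Nat.le_mul_of_pos_left _ p₁).trans hE) a₂ c₂
    obtain ⟨m, e₁, e₂⟩ : ∃ m : ℕ → ℕ, (∀ p ∈ q₁.primeFactors, m p = m₁ p) ∧
        ∀ p ∈ q₂.primeFactors, m p = m₂ p :=
      ⟨fun p => if p ∈ q₁.primeFactors then m₁ p else m₂ p, fun p hp => if_pos hp,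
        fun p hp => if_neg (disjoint_right.1 hq.disjoint_primeFactors hp)⟩
    refine ⟨m, fun p hp => ?_, fun i hi => ?_⟩
    · rw [hq.primeFactors_mul, mem_union] at hp
      rcases hp with hp | hp
      · rw [Nat.factorization_eq_of_coprime_left hq (List.mem_toFinset.1 hp), e₁ p hp]
        exact d₁ p hp
      · rw [Nat.factorization_eq_of_coprime_right hq (List.mem_toFinset.1 hp), e₂ p hp]
        exact d₂ p hp
    have f₁ : ∏ p ∈ q₁.primeFactors, θ i p ^ m p = ∏ p ∈ q₁.primeFactors, θ i p ^ m₁ p :=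
      prod_congr rfl fun p hp => by rw [e₁ p hp]
    have f₂ : ∏ p ∈ q₂.primeFactors, θ i p ^ m p = ∏ p ∈ q₂.primeFactors, θ i p ^ m₂ p :=
      prod_congr rfl fun p hp => by rw [e₂ p hp]
    have g : ∀ (s : Finset ℕ) (m : ℕ → ℕ), 0 ≤ ∏ p ∈ s, θ i p ^ m p := fun s m =>
      prod_nonneg fun p _ => pow_nonneg (hθ i p) _
    obtain ⟨b₃, b₄⟩ := b₁ i hi
    obtain ⟨b₅, b₆⟩ := b₂ i hi
    simp only [hq.primeFactors_mul, prod_union hq.disjoint_primeFactors, f₁, f₂]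
    unfold tm at b₃ b₄ b₅ b₆ ⊢
    constructor
    · rw [sum_div_gl hq, sum_congr rfl fun d₁ hd₁ => sum_congr rfl fun d₂ hd₂ =>
        split_glW (hL i) hq p₁ p₂ H' hd₁ hd₂, ← sum_mul_sum]
      exact mul_mpr (g _ _) (g _ _) (one_le_upo (hξ i) _) b₃ b₅
    · rw [sum_div_gl hq, sum_congr rfl fun d₁ hd₁ => sum_congr rfl fun d₂ hd₂ => by
        rw [split_glW (hL i) hq p₁ p₂ H' hd₁ hd₂, norm_mul], ← sum_mul_sum, mul_mul_mul_comm]
      exact mul_le_mul b₄ b₆ (sum_nonneg fun _ _ => norm_nonneg _)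
        (mul_nonneg (prod_nonneg fun p _ => hβ i p) (g _ _))

end Vale.Agent.P042.S
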