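import Vale.Agent.P042.M.Loc
import Vale.Agent.P042.M.Prod
import Vale.Agent.P042.M.Mix
import Vale.Agent.P042.M.Ang
import Vale.Agent.P042.M.ParA
import Vale.Agent.P042.M.ParB

/-! # P042 M/Glob (TASK; helper names end with _mgl): the singular series of the mixture lies in a sector.
Model: `globU` (U/GlobU).  `k = natDegree h`, `c, Λ, l₀` from `locM k`, `e₀` from `parMb`, `e` from `parMa`, `W` from `parMb`, `ℓ = natAbs lead`, `C₀ = ℓ log ℓ + 6 Λ W + ℓ`, `e₁ = e / (16 k)`; `y = 256 ^ u / u`, `κ₀ = e √u / 16 ^ u`, `r i = e / 16 ^ u * 2 ^ (u - i) ≤ e / 8 ^ u`, `s = e 16 ^ u / √u`, `D i = DK (kp y κ₀ (r i)) E z` (`DK_lw`), `w d n = ∑ i ∈ range (u + 1), nu s u i * wT (D i) 1 R d n` (`wk_mix`, `wT_wk`, `sg_mix`, `sg_tm`, `tm_one`, `nu_sum`).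
`prodM` with `P p j m = (p ^ j ≤ |lead| p ^ (k m))`, `Q _ = True`; `mag2`, `lev2`.  If `q ≤ R`: `mix_sec` with `μ = exp (-(κ₀ x1))`, `x = x2`, `γ = Λ (3 / √y + 200 l₀ ^ 3 (e / 8 ^ u) ^ 2)`, `ang2`; `u s = e √u 16 ^ u ≥ L` (`Real.mul_self_sqrt`), `exp (-L) ≤ (1 / 2) ^ L`.  If `R < q`: `s = 0`, each term is at most `exp (-(e √u 16 ^ u / (8 k)))` (`nu_sum`, `abs2` with `t = e / 8 ^ u * l₀`, `parMb` with `X = log q`), last claim of `parMa`. -/

namespace Vale.Agent.P042.S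

open Finset Polynomial

theorem eps_mgl {L : ℕ} {v : ℝ} (h : (L : ℝ) ≤ v) : Real.exp (-v) ≤ (1 / 2) ^ L := by
  have e2 : Real.exp (-(L * Real.log 2)) = (1 / 2) ^ L := by
    rw [Real.exp_neg, Real.exp_nat_mul, Real.exp_log two_pos, one_div, inv_pow]
  have l2 : Real.log 2 ≤ 1 := by
    have := Real.log_le_sub_one_of_pos (two_pos : (0 : ℝ) < 2)
    linarith
  have l3 := mul_le_mul_of_nonneg_left l2 (Nat.cast_nonneg L : (0 : ℝ) ≤ L)
  rw [← e2]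
  exact Real.exp_le_exp.2 (by linarith)

theorem rle_mgl {e : ℝ} (he : 0 ≤ e) (u i : ℕ) : e / 16 ^ u * 2 ^ (u - i) ≤ e / 8 ^ u := by
  have h1 : (2 : ℝ) ^ (u - i) ≤ 2 ^ u := pow_le_pow_right₀ one_le_two (Nat.sub_le _ _)
  refine (mul_le_mul_of_nonneg_left h1 (by positivity)).trans (le_of_eq ?_)
  rw [show (16 : ℝ) = 8 * 2 by norm_num, mul_pow]
  field_simp

theorem globM {η : ℝ} (h0 : 0 < η) (h1 : η ≤ 1) {h : ℤ[X]} (hk : 1 ≤ h.natDegree)
    (hint : ∀ q : ℕ, 1 ≤ q → ∃ t : ℤ, (q : ℤ) ∣ h.eval t) : ∃ e₁ : ℝ, 0 < e₁ ∧ e₁ ≤ 1 ∧ ∃ u₀ : ℕ,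
      ∀ u : ℕ, u₀ ≤ u → ∀ L : ℕ, (L : ℝ) ≤ e₁ * √u * 16 ^ u →
        ∀ E : ℕ, ∃ w, Ser h η (2 * (1 / 2) ^ L) (2 ^ 256 ^ u) E w := by
  obtain ⟨c, Λ, l₀, hc, hΛ, hloc⟩ := locM h.natDegree
  obtain ⟨e₀, he₀, hb⟩ := parMb l₀ hΛ hk
  obtain ⟨e, he, he1, hee, ha⟩ := parMa l₀ hc hΛ h0 he₀ hk
  obtain ⟨W, hW2, hb⟩ := hb e he hee
  have hl0 : h.leadingCoeff ≠ 0 := leadingCoeff_ne_zero.2 fun e => by
    rw [e, natDegree_zero] at hk
    omega
  have c1 : (0 : ℝ) ≤ h.leadingCoeff.natAbs * Real.log h.leadingCoeff.natAbs :=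
    mul_nonneg (Nat.cast_nonneg _) (Real.log_natCast_nonneg _)
  have c2 : 0 ≤ 6 * Λ * W := by positivity
  have c3 : (0 : ℝ) ≤ h.leadingCoeff.natAbs := Nat.cast_nonneg _
  obtain ⟨C₀, hC⟩ : ∃ C₀ : ℝ, C₀ = h.leadingCoeff.natAbs * Real.log h.leadingCoeff.natAbs +
    6 * Λ * W + h.leadingCoeff.natAbs := ⟨_, rfl⟩
  obtain ⟨u₁, hu1, ha⟩ := ha C₀
  obtain ⟨u₂, hb⟩ := hb C₀ (by linarith)
  have k1 : (1 : ℝ) ≤ h.natDegree := by exact_mod_cast hk
  refine ⟨e / (16 * h.natDegree), by positivity, (div_le_one (by positivity)).2 (by linarith),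
    max u₁ u₂, fun u hu L hL E => ?_⟩
  obtain ⟨a1, a2, a3, a4, a5, a6, a7, a8, a9⟩ := ha u (le_of_max_le_left hu)
  replace hb := hb u (le_of_max_le_right hu)
  have u0 : (0 : ℝ) < u := by exact_mod_cast (hu1.trans (le_of_max_le_left hu) : 1 ≤ u)
  have su : 0 < √(u : ℝ) := Real.sqrt_pos.2 u0
  have hL1 : (L : ℝ) ≤ e * √u * 16 ^ u / (16 * h.natDegree) := hL.trans (le_of_eq (by ring))
  have hL2 : (L : ℝ) ≤ u * (e * 16 ^ u / √u) := by
    have e1 : u * (e * 16 ^ u / √u) = e * √u * 16 ^ u := by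
      rw [mul_div_assoc', div_eq_iff su.ne']
      linear_combination (-(e * 16 ^ u)) * Real.mul_self_sqrt u0.le
    rw [e1]
    exact hL1.trans (div_le_self (by positivity) (by linarith))
  obtain ⟨z, hz⟩ := hint E.factorial E.factorial_pos
  have hdv : ∀ p : ℕ, p.Prime → ∀ j : ℕ, p ^ j ≤ E → ((p ^ j : ℕ) : ℤ) ∣ h.eval z :=
    fun p hp j hj => (Int.natCast_dvd_natCast.2 (Nat.dvd_factorial (pow_pos hp.pos j) hj)).trans hz
  have y0 : (0 : ℝ) < 256 ^ u / u := by positivity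
  have κ0 : 0 ≤ e * √u / 16 ^ u := by positivity
  have s0 : 0 ≤ e * 16 ^ u / √u := by positivity
  have r0 : 0 ≤ e / 16 ^ u := by positivity
  have t0 : 0 ≤ e / 8 ^ u := by positivity
  have rle := rle_mgl he.le u
  generalize (256 : ℝ) ^ u / u = y at *
  generalize e * √u / 16 ^ u = κ₀ at *
  generalize e * 16 ^ u / √u = s at *
  generalize e / 16 ^ u = r₀ at *
  generalize e / 8 ^ u = t at *
  have l0 : (0 : ℝ) ≤ l₀ := Nat.cast_nonneg _
  have r1 : ∀ i, 0 ≤ r₀ * 2 ^ (u - i) := fun i => by positivity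
  have p0 : ∀ i p, 0 ≤ kp y κ₀ (r₀ * 2 ^ (u - i)) p := fun i p => by
    unfold kp
    split_ifs
    · exact κ0
    · exact r1 i
  have p1 : ∀ i p, kp y κ₀ (r₀ * 2 ^ (u - i)) p ≤ c / 2 := fun i p => by
    unfold kp
    split_ifs
    · exact a3.trans a1
    · exact (rle i).trans a1
  have hW : ∀ i, LW (DK (kp y κ₀ (r₀ * 2 ^ (u - i))) E z) := fun i => DK_lw (p0 i) E z
  have θ1 : ∀ i (p : ℕ), (p : ℝ) ^ (-kp y κ₀ (r₀ * 2 ^ (u - i)) p) ≤ 1 := fun i p => by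
    rcases Nat.eq_zero_or_pos p with rfl | hp
    · rw [Nat.cast_zero]; exact Real.zero_rpow_le_one _
    · exact Real.rpow_le_one_of_one_le_of_nonpos (by exact_mod_cast hp) (neg_nonpos.2 (p0 i p))
  have hP := prodM (h := h) hW (θ := fun i p => (p : ℝ) ^ (-kp y κ₀ (r₀ * 2 ^ (u - i)) p))
    (ξ := fun i p => (1 - (p : ℝ) ^ (-kp y κ₀ (r₀ * 2 ^ (u - i)) p)) *
      (Λ * (p : ℝ) ^ (kp y κ₀ (r₀ * 2 ^ (u - i)) p * l₀ - 1 / 2)))
    (β := fun i p => 1 + 2 * (Λ * (p : ℝ) ^ (kp y κ₀ (r₀ * 2 ^ (u - i)) p * l₀ - 1 / 2)))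
    (fun i p => by positivity) (fun i p => mul_nonneg (sub_nonneg.2 (θ1 i p)) (by positivity))
    (fun i p => by positivity)
    (P := fun p j m => (p : ℤ) ^ j ≤ |h.leadingCoeff| * (p : ℤ) ^ (h.natDegree * m))
    (Q := fun _ => True) (E := E) fun p hp j a hj ha => by
      obtain ⟨m, m1, m2⟩ := hloc h hk le_rfl E z p hp j a hj (hdv p hp j hj) ha
      exact ⟨m, m1, fun i _ => m2 _ (p0 i) (p1 i p)⟩
  obtain ⟨n1, n2⟩ := nu_sum (s := s) u
  have hε : (0 : ℝ) ≤ (1 / 2) ^ L := by positivity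
  refine ⟨fun d n => ∑ i ∈ range (u + 1),
    nu s u i * wT (DK (kp y κ₀ (r₀ * 2 ^ (u - i))) E z) 1 (2 ^ 256 ^ u) d n,
    wk_mix (fun i => (n1 i).1) n2 fun i => wT_wk (hW i) _ _, ?_, fun q hq hE a ha => ?_⟩
  · rw [sg_mix]
    simp only [sg_tm (hW _) _ one_pos]
    rw [filter_true_of_mem fun d hd => (Nat.divisor_le hd).trans Nat.one_le_two_pow]
    simp only [Nat.divisors_one, sum_singleton, tm_one, mul_one]
    exact_mod_cast n2
  rw [sg_mix]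
  simp only [sg_tm (hW _) _ hq]
  obtain ⟨m, m1, m2⟩ := hP q hq hE a ha
  obtain ⟨v1, v2⟩ := lev2 hl0 y hq m1
  obtain ⟨x1n, x2n⟩ := x12_nonneg y q m
  simp only [mag2] at m2
  have b1 : κ₀ * l₀ ≤ t * l₀ := mul_le_mul_of_nonneg_right a3 l0
  have b2 : ∀ i, r₀ * 2 ^ (u - i) * l₀ ≤ t * l₀ := fun i => mul_le_mul_of_nonneg_right (rle i) l0
  rcases le_or_gt q (2 ^ 256 ^ u) with hq2 | hq2
  · rw [filter_true_of_mem fun d hd => (Nat.divisor_le hd).trans hq2]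
    obtain ⟨τ, τ0, τ1, τ2⟩ := mix_sec (I := u) h0 h1 s0 x2n (Real.exp_nonneg (-(κ₀ * x1 y q m)))
      (Real.exp_le_one_iff.2 (neg_nonpos.2 (mul_nonneg κ0 x1n))) r0 (by positivity) a5 a6 a7
      (S := fun i => ∑ d ∈ q.divisors, tm h (DK (kp y κ₀ (r₀ * 2 ^ (u - i))) E z) q a d)
      fun i _ => by
        refine (m2 i trivial).1.trans (mul_le_mul_of_nonneg_right (sub_le_sub_right
          ((ang2 hΛ y0 κ0 (r1 i) l0 (b1.trans a2) ((b2 i).trans a2) fun p hp hy => v2 p hp ?_).trans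
            (Real.exp_le_exp.2 (add_le_add a4 ?_))) _) (by positivity))
        · have : (h.leadingCoeff.natAbs : ℝ) < p := by linarith
          exact_mod_cast this
        · have g1 := pow_le_pow_left₀ (r1 i) (rle i) 2
          have g2 := mul_nonneg (r1 i) x2n
          gcongr
    have := eps_mgl hL2
    exact ⟨τ, τ0, τ1, by linarith⟩
  · refine ⟨0, le_rfl, zero_le_one, ?_⟩
    rw [Complex.ofReal_zero, sub_zero, mul_zero, zero_add]
    have q1 : 256 ^ u * Real.log 2 ≤ Real.log q := by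
      have := Real.log_le_log (x := ((2 ^ 256 ^ u : ℕ) : ℝ)) (y := q) (by positivity)
        (by exact_mod_cast hq2.le)
      rwa [Nat.cast_pow, Real.log_pow, Nat.cast_ofNat, Nat.cast_pow, Nat.cast_ofNat] at this
    refine (norm_sum_le _ _).trans ((sum_le_card_nsmul _ _
      (Real.exp (-(e * √u * 16 ^ u / (8 * h.natDegree)))) fun i hi => ?_).trans ?_)
    · rw [norm_mul, Complex.norm_real, Real.norm_of_nonneg (n1 i).1]
      have g1 := (norm_sum_le _ _).trans ((sum_le_sum_of_subset_of_nonneg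
        (filter_subset (fun d => d ≤ 2 ^ 256 ^ u) _) fun _ _ _ => norm_nonneg _).trans
        ((m2 i trivial).2.trans (mul_le_mul_of_nonneg_right
          (abs2 hq hΛ (mul_nonneg t0 l0) a2 b1 (b2 i) hW2) (by positivity))))
      refine (mul_le_mul (n1 i).2 g1 (norm_nonneg _) (Real.exp_nonneg _)).trans ?_
      rw [← Real.exp_add, ← Real.exp_add, ← Real.exp_add]
      have g2 := hb _ q1 i (Nat.lt_succ_iff.1 (mem_range.1 hi)) _ _ x1n x2n (by linarith)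
      exact Real.exp_le_exp.2 (by linarith)
    · rw [card_range, nsmul_eq_mul, Nat.cast_succ]
      have := eps_mgl hL1
      linarith

end Vale.Agent.P042.S
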