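import Vale.Agent.P042.M.Sg

/-! # P042 M/Loc (TASK; helper names end with _mlo): the local factor with an explicit main term.
`seq3`: copy the first half of `seq2` (U/Seq): the sum is `θ ^ m + (1 - θ) ∑ i < m, θ ^ i G i`.  `locM`: copy `locU` (U/LocU), take `m` from `ball2` before `κ` is introduced; `DK_lw`, `seq3`, `(seq2 …).2`. -/

namespace Vale.Agent.P042.S

open Finset Polynomial

theorem seq3 {G : ℕ → ℂ} {m n : ℕ} {θ σ : ℝ} (hθ0 : 0 < θ) (hθ1 : θ ≤ 1) (h1 : ∀ i, m ≤ i → G i = 1)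
    (hσ : ∑ i ∈ range m, θ ^ i * ‖G i‖ ≤ σ * θ ^ m) (hn : m ≤ n) :
    ‖G 0 + ∑ i ∈ range n, (θ : ℂ) ^ (i + 1) * (G (i + 1) - G i) - ((θ ^ m : ℝ) : ℂ)‖ ≤
      (1 - θ) * σ * θ ^ m := by
  have nθ : ∀ k, ‖(θ : ℂ) ^ k‖ = θ ^ k := fun k => by rw [norm_pow, Complex.norm_of_nonneg hθ0.le]
  have hZ : ∀ k, G 0 + ∑ i ∈ range k, (θ : ℂ) ^ (i + 1) * (G (i + 1) - G i) =
      θ ^ k * G k + (1 - θ) * ∑ i ∈ range k, (θ : ℂ) ^ i * G i := fun k => by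
    induction k with
    | zero => simp
    | succ k ih =>
      rw [sum_range_succ, ← add_assoc, ih, sum_range_succ]
      ring
  have hz : ∀ i, m ≤ i → (θ : ℂ) ^ (i + 1) * (G (i + 1) - G i) = 0 := fun i hi => by
    rw [h1 i hi, h1 (i + 1) (by omega), sub_self, mul_zero]
  rw [← sum_subset (range_subset_range.2 hn) fun i _ hi => hz i (by simpa using hi), hZ,
    h1 m le_rfl, mul_one, Complex.ofReal_pow, add_sub_cancel_left]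
  have a1 : ‖∑ i ∈ range m, (θ : ℂ) ^ i * G i‖ ≤ σ * θ ^ m :=
    (norm_sum_le_of_le _ fun i _ => norm_mul_le_of_le (nθ i).le le_rfl).trans hσ
  have a2 : ‖(1 - θ : ℂ)‖ ≤ 1 - θ := by
    rw [← Complex.ofReal_one, ← Complex.ofReal_sub, Complex.norm_of_nonneg (by linarith)]
  exact (norm_mul_le_of_le a2 a1).trans_eq (by ring)

theorem locM (k : ℕ) : ∃ (c Λ : ℝ) (l₀ : ℕ), 0 < c ∧ 0 ≤ Λ ∧ ∀ h : ℤ[X], 1 ≤ h.natDegree →
    h.natDegree ≤ k → ∀ (E : ℕ) (z : ℤ) (p : ℕ), p.Prime → ∀ (j : ℕ) (a : ℤ), p ^ j ≤ E →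
      ((p ^ j : ℕ) : ℤ) ∣ h.eval z → IsCoprime a p → ∃ m : ℕ,
        (p : ℤ) ^ j ≤ |h.leadingCoeff| * (p : ℤ) ^ (k * m) ∧ ∀ κ : ℕ → ℝ, (∀ p, 0 ≤ κ p) →
          κ p ≤ c / 2 →
          ‖∑ d ∈ (p ^ j).divisors, tm h (DK κ E z) (p ^ j) a d -
            ((((p : ℝ) ^ (-κ p)) ^ m : ℝ) : ℂ)‖ ≤ (1 - (p : ℝ) ^ (-κ p)) *
              (Λ * (p : ℝ) ^ (κ p * l₀ - 1 / 2)) * ((p : ℝ) ^ (-κ p)) ^ m ∧
          ∑ d ∈ (p ^ j).divisors, ‖tm h (DK κ E z) (p ^ j) a d‖ ≤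
            (1 + 2 * (Λ * (p : ℝ) ^ (κ p * l₀ - 1 / 2))) * ((p : ℝ) ^ (-κ p)) ^ m := by
  obtain ⟨c, hc, hc1, hB⟩ := ball2 k
  have hρ₁ : (2 : ℝ) ^ (-(c / 2)) < 1 := Real.rpow_lt_one_of_one_lt_of_neg one_lt_two (by linarith)
  have hΛ : 0 ≤ (⌈1 / c⌉₊ : ℝ) * k + 2 / (1 - (2 : ℝ) ^ (-(c / 2))) :=
    add_nonneg (by positivity) (div_nonneg zero_le_two (by linarith))
  have hl : 1 ≤ c * (⌈1 / c⌉₊ : ℕ) := by
    have := Nat.le_ceil (1 / c)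
    rwa [div_le_iff₀ hc, mul_comm] at this
  refine ⟨c, (⌈1 / c⌉₊ : ℝ) * k + 2 / (1 - (2 : ℝ) ^ (-(c / 2))), ⌈1 / c⌉₊, hc, hΛ,
    fun h hk hk' E z p hp j a hE hz ha => ?_⟩
  obtain ⟨m, hm, g1, g2, g3, g4⟩ := hB h hk hk' p hp j z a hz ha
  refine ⟨m, g4, fun κ hκ0 hκ => ?_⟩
  have hp0 : (0 : ℝ) < p := by exact_mod_cast hp.pos
  have hp2 : (2 : ℝ) ≤ p := by exact_mod_cast hp.two_le
  have h1 : (p : ℝ) ^ (-κ p) ≤ 1 :=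
    Real.rpow_le_one_of_one_le_of_nonpos (by linarith) (by linarith [hκ0 p])
  have hσ := sig_le (g := fun i => ‖Gb h z a p j i‖) hp2 hc (hκ0 p) hκ hl (Nat.cast_nonneg k) g2 g3
  have hS := seq2 (G := Gb h z a p j) (Real.rpow_pos_of_pos hp0 _) h1 g1 hσ hm
  have hS' := seq3 (G := Gb h z a p j) (Real.rpow_pos_of_pos hp0 _) h1 g1 hσ hm
  have hL : LW (DK κ E z) := DK_lw hκ0 E z
  have hjE : j ≤ E := (Nat.lt_pow_self hp.one_lt).le.trans hE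
  have t0 : tm h (DK κ E z) (p ^ j) a (p ^ 0) = Gb h z a p j 0 := by
    simp only [tm, gw_powW hL hp]
    exact DT_tm0 p j a
  have t1 : ∀ i ∈ range j, tm h (DK κ E z) (p ^ j) a (p ^ (i + 1)) =
      (((p : ℝ) ^ (-κ p) : ℝ) : ℂ) ^ (i + 1) * (Gb h z a p j (i + 1) - Gb h z a p j i) :=
    fun i hi => by
      simp only [tm, gw_powW hL hp]
      rw [DK, DT_tm hp (mem_range.1 hi) a, if_pos ((mem_range.1 hi).trans_le hjE)]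
  have e1 : ∑ d ∈ (p ^ j).divisors, tm h (DK κ E z) (p ^ j) a d =
      Gb h z a p j 0 + ∑ i ∈ range j, (((p : ℝ) ^ (-κ p) : ℝ) : ℂ) ^ (i + 1) *
        (Gb h z a p j (i + 1) - Gb h z a p j i) := by
    rw [Nat.sum_divisors_prime_pow hp, sum_range_succ', t0, sum_congr rfl t1, add_comm]
  have e2 : ∑ d ∈ (p ^ j).divisors, ‖tm h (DK κ E z) (p ^ j) a d‖ =
      ‖Gb h z a p j 0‖ + ∑ i ∈ range j, ‖(((p : ℝ) ^ (-κ p) : ℝ) : ℂ) ^ (i + 1) *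
        (Gb h z a p j (i + 1) - Gb h z a p j i)‖ := by
    rw [Nat.sum_divisors_prime_pow hp, sum_range_succ', t0, add_comm]
    congr 1
    exact sum_congr rfl fun i hi => by rw [t1 i hi]
  rw [e1, e2]
  exact ⟨hS', hS.2⟩

end Vale.Agent.P042.S
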