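import Vale.Agent.P042.M.Glob
import Vale.Agent.P042.M.Fin
import Vale.Agent.P042.T.Main

/-! # P042 M/Main: assembly. -/

namespace Vale.Agent.P042.S

open Finset Polynomial

theorem mainM {h : ℤ[X]} (hk : 2 ≤ h.natDegree) (hl : 0 < h.leadingCoeff)
    (hi : ∀ q : ℕ, 1 ≤ q → ∃ t : ℤ, (q : ℤ) ∣ h.eval t) : ∃ c : ℝ, 0 < c ∧ ∃ C : ℝ,
      ∀ (N : ℕ) (A : Finset ℕ), A ⊆ Icc 1 N →
        (∀ a ∈ A, ∀ b ∈ A, ∀ n : ℕ, 1 ≤ n → (a : ℤ) - b = h.eval (n : ℤ) → a = b) →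
          (A.card : ℝ) ≤ C * N * Real.exp (-(c * √(Real.log N * Real.log (Real.log N)))) := by
  obtain ⟨n₀, B, hn, hG⟩ := gro_poly hk hl 1
  have hT : 2 * B ^ 2 ≤ (⌈2 * B ^ 2⌉₊ : ℕ) := Nat.le_ceil _
  have hT1 : 1 ≤ ⌈2 * B ^ 2⌉₊ := Nat.ceil_pos.mpr (by have := hG.one; positivity)
  obtain ⟨K, C, hC, hker⟩ := kernT hk hl hG hT
  obtain ⟨e₁, he0, he1, u₀, hA₀⟩ := globM (η := 1 / 500) (by norm_num) (by norm_num) (by omega) hi
  obtain ⟨b, hb⟩ := pow_unbounded_of_one_lt B (show (1 : ℝ) < 2 by norm_num)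
  obtain ⟨L₀, hL₀⟩ := half_tma hC
  obtain ⟨c, hc, has⟩ := asym3 (b + 1 * K * h.natDegree) he0
  obtain ⟨u₁, hu₁⟩ := exists_nat_ge ((L₀ + 1 : ℕ) / e₁)
  obtain ⟨C', hC'⟩ := has (u₀ + u₁ + n₀ + 1) (16 * C)
  refine ⟨c, hc, C', fun N A hA hf => hC' N _ ?_ fun u hu hN => ?_⟩
  · have := card_le_card hA
    rw [Nat.card_Icc, Nat.add_sub_cancel] at this
    exact_mod_cast this
  · obtain ⟨L, hLe⟩ : ∃ L, L = ⌊e₁ * √u * 16 ^ u⌋₊ := ⟨_, rfl⟩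
    rw [← hLe]
    have u1 : (1 : ℝ) ≤ u := by exact_mod_cast (show 1 ≤ u by omega)
    have g1 : (1 : ℝ) ≤ √u := Real.one_le_sqrt.2 u1
    have u2 : (u : ℝ) ≤ 16 ^ u := by exact_mod_cast (Nat.lt_pow_self (by norm_num)).le
    have g2 : √u ≤ (16 : ℝ) ^ u := (Real.sqrt_le_self_iff.2 (Or.inr u1)).trans u2
    have hL1 : (L : ℝ) ≤ e₁ * √u * 16 ^ u := by
      rw [hLe]
      exact Nat.floor_le (by positivity)
    have hL2 : L₀ + 1 ≤ L := by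
      rw [hLe]
      refine Nat.le_floor ?_
      have a1 : (u₁ : ℝ) ≤ u := by exact_mod_cast (show u₁ ≤ u by omega)
      rw [div_le_iff₀ he0] at hu₁
      have a2 : (u : ℝ) ≤ √u * 16 ^ u := u2.trans (le_mul_of_one_le_left (by positivity) g1)
      have a3 := mul_le_mul_of_nonneg_left (a1.trans a2) he0.le
      rw [mul_assoc]
      linarith
    have hL3 : L ≤ 256 ^ u := by
      have a1 : e₁ * √u * 16 ^ u ≤ 1 * 16 ^ u * 16 ^ u := by gcongr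
      have a2 : (1 : ℝ) * 16 ^ u * 16 ^ u = 256 ^ u := by
        rw [one_mul, ← mul_pow]
        norm_num
      exact_mod_cast hL1.trans (a1.trans a2.le)
    have hR1 : 2 ^ L ≤ 2 ^ 256 ^ u := Nat.pow_le_pow_right two_pos hL3
    have hR2 : 2 ^ 256 ^ u ≤ 2 ^ (1 * 256 ^ u) := by rw [one_mul]
    have hR3 : n₀ ≤ 2 ^ 256 ^ u :=
      (show n₀ ≤ u by omega).trans ((Nat.lt_pow_self (by norm_num)).le.trans Nat.lt_two_pow_self.le)
    obtain ⟨R, hRe⟩ : ∃ R, R = 2 ^ 256 ^ u := ⟨_, rfl⟩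
    have hw := hA₀ u (by omega) L hL1
    rw [← hRe] at hR1 hR3 hw
    replace hR2 : R ≤ 2 ^ (1 * 256 ^ u) := hRe ▸ hR2
    obtain ⟨E, M, hM, hTM, hs⟩ := hker L R (by omega) hR1 hR3
    obtain ⟨w, hw⟩ := hw E
    obtain ⟨h1, h2⟩ := hs w hw
    have h3 := tm_del hG hT1 hM hA (size_tma hb.le (by omega) hTM hR2 hN)
      (fun a ha b hb n hn' => hf a ha b hb n (hn.trans hn')) (by positivity) h1
    have h4 := hL₀ L (by omega)
    have h5 : (0 : ℝ) < (3 / 2) ^ (2 * L) := by positivity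
    have h6 : (0 : ℝ) ≤ A.card := Nat.cast_nonneg _
    have h7 : (1 / 8 : ℝ) * (3 / 2) ^ (2 * L) ≤ (Tm h w n₀ M ⌈2 * B ^ 2⌉₊ R (2 * L) 0).re :=
      (mul_le_mul_of_nonneg_right (by linarith) h5.le).trans h2
    have h8 := (mul_le_mul_of_nonneg_left h7 h6).trans h3
    refine le_of_mul_le_mul_right ?_ h5
    linarith

end Vale.Agent.P042.S
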