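import Vale.Agent.P042.M.Defs

/-! # P042 M/Sg (TASK; helper names end with _msg): singular series of truncated weights and of mixtures.
`sg_tm`: unfold `Sg`, `wT` (`Nat.gcd_one_right`, `Nat.div_one`); `gw_vanW` for `d ∤ q`; for `d ∣ q` the function has period `q` (`gw_perW`, `ph_per`, `Function.Periodic.nat_mul`), `av_mul`; `sum_subset`, compare `sg_split` in T/Trunc.
`sg_mix`: unfold `Sg`, `av`; `sum_comm`, `mul_sum`, `sum_mul`, `sum_div`.  `nu_sum`: the denominator is at least `exp 0 = 1` (`single_le_sum`). -/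

namespace Vale.Agent.P042.S

open Finset Polynomial

theorem sg_tm {h : ℤ[X]} {D : ℕ → ℕ → ℤ → ℝ} (hL : LW D) (R : ℕ) {q : ℕ} (hq : 0 < q) (a : ℤ) :
    Sg h (wT D 1 R) R q a = ∑ d ∈ q.divisors with d ≤ R, tm h D q a d := by
  have e := red_ttr (h := h) hL (Q := 1) (R₂ := R) one_pos hq a
  rw [one_mul] at e
  rw [e, sum_filter]
  simp only [Nat.gcd_one_right, Nat.div_one]

theorem sg_mix (h : ℤ[X]) (S : Finset ℕ) (ν : ℕ → ℝ) (w : ℕ → ℕ → ℤ → ℝ) (R q : ℕ) (a : ℤ) :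
    Sg h (fun d n => ∑ i ∈ S, ν i * w i d n) R q a = ∑ i ∈ S, (ν i : ℂ) * Sg h (w i) R q a := by
  unfold Sg av
  simp only [mul_sum, Complex.ofReal_sum, Complex.ofReal_mul, sum_mul, sum_div]
  rw [sum_comm]
  refine sum_congr rfl fun d _ => ?_
  rw [sum_comm]
  refine sum_congr rfl fun i _ => sum_congr rfl fun n _ => ?_
  ring

theorem wk_mix {S : Finset ℕ} {ν : ℕ → ℝ} {w : ℕ → ℕ → ℤ → ℝ} (h0 : ∀ i, 0 ≤ ν i)
    (h1 : ∑ i ∈ S, ν i = 1) (hw : ∀ i, Wk (w i)) : Wk fun d n => ∑ i ∈ S, ν i * w i d n := by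
  refine ⟨fun d n => sum_congr rfl fun i _ => by rw [(hw i).1 d n], fun d hd n => ?_⟩
  refine (abs_sum_le_sum_abs _ _).trans ?_
  calc ∑ i ∈ S, |ν i * w i d n| ≤ ∑ i ∈ S, ν i * d := sum_le_sum fun i _ => by
        rw [abs_mul, abs_of_nonneg (h0 i)]
        exact mul_le_mul_of_nonneg_left ((hw i).2 d hd n) (h0 i)
    _ = d := by rw [← sum_mul, h1, one_mul]

theorem nu_sum {s : ℝ} (I : ℕ) : (∀ i, 0 ≤ nu s I i ∧ nu s I i ≤ Real.exp (-(i * s))) ∧
    ∑ i ∈ range (I + 1), nu s I i = 1 := by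
  have h1 : 1 ≤ ∑ j ∈ range (I + 1), Real.exp (-(j * s)) := by
    have := single_le_sum (f := fun j : ℕ => Real.exp (-(j * s))) (fun j _ => (Real.exp_pos _).le)
      (mem_range.2 (Nat.succ_pos I))
    simpa using this
  refine ⟨fun i => ⟨div_nonneg (Real.exp_pos _).le (by linarith),
    div_le_self (Real.exp_pos _).le h1⟩, ?_⟩
  unfold nu
  rw [← sum_div, div_self (by linarith)]

theorem DK_lw {κ : ℕ → ℝ} (h0 : ∀ p, 0 ≤ κ p) (E : ℕ) (z : ℤ) : LW (DK κ E z) := by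
  refine DT_lw (fun p => Real.rpow_nonneg (Nat.cast_nonneg p) _) fun p => ?_
  rcases Nat.eq_zero_or_pos p with rfl | hp
  · rw [Nat.cast_zero]
    exact Real.zero_rpow_le_one _
  · exact Real.rpow_le_one_of_one_le_of_nonpos (by exact_mod_cast hp) (by linarith [h0 p])

end Vale.Agent.P042.S
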